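import Vale.Agent.P155.A4.Sign

/-!
# P155: signed counts for sub-graphs with tileable complement

`detR_sub`: for `V` with `Sub T V`, removed vertices `S ∪ g S` and signs `s` correcting the parity
of the removed points inside each loop, `|detR V m0 (Kc S g s)| = Z (V \ (S ∪ g S))`.
-/

namespace Vale.Agent.P155.T211

open Finset Equiv.Perm Vale.Agent.P155.F Vale.Agent.P155.Skel Vale.Agent.P155.A4

open Classical in
/-- Points satisfying a locally constant property: those in `V'` come in pairs. -/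
theorem parity_gen {V' : Finset Pt} {M : Pt → Pt} (h1 : IsPM V' M)
    {L : Set Pt} {P : Pt → Prop} (hLm : ∀ v, v ∈ L ↔ M v ∈ L) (X : Finset Pt)
    (hXL : ∀ x ∈ X, x ∉ L) (hdisj : ∀ x ∈ X, x ∉ V')
    (hfin : {v | v ∉ L ∧ P v}.Finite)
    (hadj : ∀ u v, Adj u v → u ∉ L → v ∉ L → (P u ↔ P v))
    (hsub : ∀ v, v ∉ L → P v → v ∈ V' ∨ v ∈ X) :
    (-1 : ℝ) ^ (Set.ncard {v | v ∉ L ∧ P v}) = ∏ x ∈ X, (if P x then (-1 : ℝ) else 1) := by
  set I := hfin.toFinset with hI
  have hmemI : ∀ v, v ∈ I ↔ v ∉ L ∧ P v := by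
    intro v
    rw [hI, Set.Finite.mem_toFinset]
    rfl
  have hcard : Set.ncard {v | v ∉ L ∧ P v} = I.card :=
    Set.ncard_eq_toFinset_card _ hfin
  rw [hcard]
  have hsplit : (-1 : ℝ) ^ I.card = (∏ v ∈ I.filter (· ∈ X), (-1 : ℝ)) *
      ∏ v ∈ I.filter (· ∉ X), (-1 : ℝ) := by
    rw [prod_filter_mul_prod_filter_not, prod_const]
  have hodd : ∏ v ∈ I.filter (· ∉ X), (-1 : ℝ) = 1 := by
    apply prod_involution (fun v _ => M v)
    · intro a _
      norm_num
    · intro a ha _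
      have ha' := (mem_filter.1 ha)
      have hV : a ∈ V' := by
        rcases hsub a ((hmemI a).1 ha'.1).1 ((hmemI a).1 ha'.1).2 with h | h
        · exact h
        · exact absurd h ha'.2
      exact fun h => adj_ne (h1.adj a hV) h.symm
    · intro a ha
      have ha' := (mem_filter.1 ha)
      have haI := (hmemI a).1 ha'.1
      have hV : a ∈ V' := by
        rcases hsub a haI.1 haI.2 with h | h
        · exact h
        · exact absurd h ha'.2
      have hmL : M a ∉ L := fun h => haI.1 ((hLm a).2 h)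
      rw [mem_filter, hmemI]
      exact ⟨⟨hmL, (hadj a (M a) (h1.adj a hV) haI.1 hmL).1 haI.2⟩,
        fun h => hdisj _ h (IsPM.mem h1 hV)⟩
    · intro a _
      exact h1.invol a
  rw [hsplit, hodd, mul_one]
  have hX : ∏ x ∈ X, (if P x then (-1 : ℝ) else 1) = ∏ x ∈ X.filter (· ∈ I), (-1 : ℝ) := by
    rw [prod_filter]
    apply prod_congr rfl
    intro x hx
    by_cases h : P x
    · rw [if_pos h, if_pos ((hmemI x).2 ⟨hXL x hx, h⟩)]
    · rw [if_neg h, if_neg (fun hh => h ((hmemI x).1 hh).2)]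
  rw [hX]
  apply prod_congr _ (fun _ _ => rfl)
  ext x
  simp only [mem_filter]
  exact and_comm

/-- A matching of `V \ X` extends to a matching of `T.V \ X`. -/
theorem extend_sdiff {T : Temp} {V X : Finset Pt} (h : Sub T V) (hX : X ⊆ V) {m1 : Pt → Pt}
    (h1 : IsPM (V \ X) m1) : ∃ M, IsPM (T.V \ X) M ∧ ∀ v ∈ V \ X, M v = m1 v := by
  classical
  have hVT := A4.Sub.sub h
  obtain ⟨m, hm, hmV⟩ := h
  rw [mem_PM] at hm
  have hout : ∀ v, v ∉ V → m v ∉ V := by
    intro v hv hmv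
    have := (hmV _ hmv).2
    rw [hm.invol] at this
    exact hv this
  have hm1 : ∀ v ∈ V, m1 v ∈ V := by
    intro v hv
    by_cases hx : v ∈ X
    · have : v ∉ V \ X := fun hh => (mem_sdiff.1 hh).2 hx
      rw [h1.off v this]
      exact hv
    · exact (mem_sdiff.1 (IsPM.mem h1 (mem_sdiff.2 ⟨hv, hx⟩))).1
  refine ⟨fun v => if v ∈ V then m1 v else m v, ⟨?_, ?_, ?_⟩, ?_⟩
  · intro v
    by_cases hv : v ∈ V
    · simp only [hv, if_true, hm1 v hv, h1.invol]
    · simp only [hv, if_false, hout v hv, hm.invol]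
  · intro v hv
    by_cases hv' : v ∈ V
    · simp only [hv', if_true]
      apply h1.off
      intro hh
      exact hv (mem_sdiff.2 ⟨hVT hv', (mem_sdiff.1 hh).2⟩)
    · simp only [hv', if_false]
      apply hm.off
      intro hh
      exact hv (mem_sdiff.2 ⟨hh, fun hx => hv' (hX hx)⟩)
  · intro v hv
    obtain ⟨hvT, hvX⟩ := mem_sdiff.1 hv
    by_cases hv' : v ∈ V
    · simp only [hv', if_true]
      exact h1.adj v (mem_sdiff.2 ⟨hv', hvX⟩)
    · simp only [hv', if_false]
      exact hm.adj v hvT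
  · intro v hv
    simp only [(mem_sdiff.1 hv).1, if_true]

/-- The parity of the points inside a loop of a pair of matchings of `V \ X`. -/
theorem parity_sub {T : Temp} {V X : Finset Pt} (hI : InsideLoop) (hV : Sub T V) (hX : X ⊆ V)
    {m1 m2 : Pt → Pt} (h1 : IsPM (V \ X) m1) (h2 : IsPM (V \ X) m2) {L : Set Pt}
    (hL : L ∈ Loops (m1, m2)) :
    (-1 : ℝ) ^ (Set.ncard {v | v ∉ L ∧ surr (m1, m2) L v}) = ∏ x ∈ X, ss (m1, m2) L x := by
  classical
  obtain ⟨hfin, hadj, hsub⟩ := hI (V \ X) m1 m2 h1 h2 L hL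
  obtain ⟨M, hM, hMV⟩ := extend_sdiff hV hX h1
  have hLV : ∀ v ∈ L, v ∈ V \ X := fun v hv => loops_sub h1 h2 hL hv
  have hLM : ∀ v, v ∈ L ↔ M v ∈ L := by
    intro v
    constructor
    · intro hv
      rw [hMV v (hLV v hv)]
      exact (loops_closed1 h1 hL v).1 hv
    · intro hMv
      have h3 := hLV _ hMv
      have h4 : M (M v) = m1 (M v) := hMV _ h3
      rw [hM.invol] at h4
      rw [h4]
      exact (loops_closed1 h1 hL (M v)).1 hMv
  have := parity_gen hM (P := surr (m1, m2) L) hLM X (fun x hx hxL => (mem_sdiff.1 (hLV x hxL)).2 hx)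
    (fun x hx h => (mem_sdiff.1 h).2 hx) hfin hadj (fun v hv hs => by
      have h3 := hsub T (sdiff_subset.trans (A4.Sub.sub hV)) v hv hs
      by_cases hx : v ∈ X
      · exact Or.inr hx
      · exact Or.inl (mem_sdiff.2 ⟨h3, hx⟩))
  rw [this]
  exact prod_congr rfl fun x _ => by unfold ss; rfl

open Classical in
/-- **Signed count for sub-graphs.** -/
theorem detR_sub (hSg : SignLoop) (hI : InsideLoop) {T : Temp} {V : Finset Pt} (hVs : Sub T V)
    {m0 : Pt → Pt} (h0 : IsPM V m0) {S : Finset Pt} {g : Pt → Pt}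
    (hS : ∀ w ∈ S, w ∈ V ∧ White w) (hg : ∀ w ∈ S, g w ∈ V ∧ Black (g w))
    (hinj : Set.InjOn g S) (s : Pt → Pt → ℝ) (hs : ∀ w b, |s w b| = 1)
    (hcut : ∀ m1 m2, IsPM (V \ (S ∪ S.image g)) m1 → IsPM (V \ (S ∪ S.image g)) m2 →
      ∀ L ∈ Loops (m1, m2),
        ∏ w ∈ (V \ (S ∪ S.image g)).filter (fun w => White w ∧ w ∈ L),
          (s w (m1 w) * s w (m2 w)) = ∏ x ∈ S ∪ S.image g, ss (m1, m2) L x) :
    |detR V m0 (Kc S g s)| = Z (V \ (S ∪ S.image g)) := by
  set X := S ∪ S.image g with hX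
  have hXV : X ⊆ V := by
    intro x hx
    rw [hX, mem_union, mem_image] at hx
    rcases hx with h | ⟨y, hy, rfl⟩
    · exact (hS x h).1
    · exact (hg y hy).1
  -- the product over a pair of good permutations
  have key : ∀ σ τ : Equiv.Perm (WV V), Good V m0 S g σ → Good V m0 S g τ →
      ((Equiv.Perm.sign σ : ℤ) : ℝ) * ((Equiv.Perm.sign τ : ℤ) : ℝ) *
        ∏ i : WV V, (Kc S g s i (m0 (σ i)) * Kc S g s i (m0 (τ i))) = 1 := by
    intro σ τ hσ hτ
    have hP1 := isPM_matchOf h0 hS hg hinj hσ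
    have hP2 := isPM_matchOf h0 hS hg hinj hτ
    apply sign_mul_sign_mul_prod
    · intro i hi
      rw [hi]
      have : |Kc S g s i (m0 (τ i))| = 1 := by
        unfold Kc
        split_ifs with h h2
        · simp
        · exact absurd ((hτ i).1 h) h2
        · rw [abs_mul, hs, mul_one]
          exact abs_K_eq ((hτ i).2 h)
      rw [← abs_mul_abs_self, this, one_mul]
    · intro c hc
      obtain ⟨L, hL, hprod⟩ := prod_cycle h0 hS hg hinj hσ hτ hc
      set m1 := matchOf V m0 S g σ with hm1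
      set m2 := matchOf V m0 S g τ with hm2
      have hsuppS : ∀ i ∈ c.support, (i : Pt) ∉ S := by
        intro i hi h
        exact mem_support.1 (mem_cycleFactorsFinset_support_le hc hi) (rot_fix h0 hσ hτ h)
      have e1 : ∏ i ∈ c.support, (Kc S g s i (m0 (σ i)) * Kc S g s i (m0 (τ i))) =
          ∏ i ∈ c.support, ((K i (m1 i) * K i (m2 i)) * (s i (m1 i) * s i (m2 i))) := by
        apply prod_congr rfl
        intro i hi
        have hiS := hsuppS i hi
        rw [hm1, hm2, matchOf_white i hiS, matchOf_white i hiS]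
        unfold Kc
        rw [if_neg hiS, if_neg hiS]
        ring
      have e2 := hprod (fun v => (K v (m1 v) * K v (m2 v)) * (s v (m1 v) * s v (m2 v)))
      have e3 := hSg (V \ X) m1 m2 hP1 hP2 L hL
      have e4 := hcut m1 m2 hP1 hP2 L hL
      have e5 : (c.support.card : ℕ) = ((V \ X).filter (fun w => White w ∧ w ∈ L)).card := by
        have h1 := hprod (fun _ => 2)
        rw [prod_const, prod_const] at h1
        exact Nat.pow_right_injective (le_refl 2) (by exact_mod_cast h1)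
      have e6 := parity_sub hI hVs hXV hP1 hP2 hL
      rw [e1, e2, prod_mul_distrib, e3, e4, pow_add, pow_add, e6, e5, pow_add]
      have hsq : (∏ x ∈ X, ss (m1, m2) L x) * (∏ x ∈ X, ss (m1, m2) L x) = 1 := by
        rw [← prod_mul_distrib]
        apply prod_eq_one
        intro x _
        rcases ss_cases (m1, m2) L x with h | h <;> rw [h] <;> norm_num
      calc (∏ x ∈ X, ss (m1, m2) L x) *
            (-1) ^ ((V \ X).filter (fun w => White w ∧ w ∈ L)).card * (-1) ^ 1 *
            ∏ x ∈ X, ss (m1, m2) L x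
          = ((∏ x ∈ X, ss (m1, m2) L x) * (∏ x ∈ X, ss (m1, m2) L x)) *
            ((-1) ^ ((V \ X).filter (fun w => White w ∧ w ∈ L)).card * (-1) ^ 1) := by ring
        _ = (-1) ^ ((V \ X).filter (fun w => White w ∧ w ∈ L)).card * (-1) ^ 1 := by
            rw [hsq, one_mul]
  -- conclusion
  by_cases hne : ∃ σ0 : Equiv.Perm (WV V), Good V m0 S g σ0
  · obtain ⟨σ0, hσ0⟩ := hne
    have habs : ∀ σ : Equiv.Perm (WV V), Good V m0 S g σ →
        |((Equiv.Perm.sign σ : ℤ) : ℝ) * ∏ w : WV V, Kc S g s w (m0 (σ w))| = 1 := by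
      intro σ hσ
      rw [abs_mul, abs_prod_Kc hs hσ, mul_one]
      rcases Int.units_eq_one_or (Equiv.Perm.sign σ) with h | h <;> rw [h] <;> simp
    refine abs_detR_eq h0 hS hg hinj (unitRows_Kc V S g s hs)
      (c := ((Equiv.Perm.sign σ0 : ℤ) : ℝ) * ∏ w : WV V, Kc S g s w (m0 (σ0 w)))
      (habs σ0 hσ0) ?_
    intro σ hσ
    have h1 := key σ σ0 hσ hσ0
    rw [prod_mul_distrib] at h1
    have h2 : (((Equiv.Perm.sign σ : ℤ) : ℝ) * ∏ w : WV V, Kc S g s w (m0 (σ w))) *
        (((Equiv.Perm.sign σ0 : ℤ) : ℝ) * ∏ w : WV V, Kc S g s w (m0 (σ0 w))) = 1 := by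
      rw [← h1]; ring
    have h3 := habs σ0 hσ0
    set A := ((Equiv.Perm.sign σ : ℤ) : ℝ) * ∏ w : WV V, Kc S g s w (m0 (σ w))
    set B := ((Equiv.Perm.sign σ0 : ℤ) : ℝ) * ∏ w : WV V, Kc S g s w (m0 (σ0 w))
    have h4 : B * B = 1 := by rw [← abs_mul_abs_self, h3, one_mul]
    calc A = A * (B * B) := by rw [h4, mul_one]
      _ = (A * B) * B := by ring
      _ = B := by rw [h2, one_mul]
  · push Not at hne
    exact abs_detR_eq h0 hS hg hinj (unitRows_Kc V S g s hs) (c := 1) abs_one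
      (fun σ hσ => absurd hσ (hne σ))

end Vale.Agent.P155.T211
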