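import Vale.Agent.P155.T211.Slot
import Vale.Agent.P155.T211.SubDet
import Vale.Agent.P155.F.Kbound
import Vale.Agent.P155.F.CutLoop

/-!
# P155, LEG: the deterministic bound

`leg_ratio`: for `V` contained in the box of radius `L` around `x` and containing the box of radius
`L - 5`, removing an even number of whites in a small box and equally many blacks near the boundary
of the box of radius `L` costs a large power of the ratio of the radii.
-/

namespace Vale.Agent.P155.T211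

open Finset F Skel A4

/-- A face far away from the vertex set is not surrounded. -/
theorem not_surr_of_far {V : Finset Pt} {m1 m2 : Pt → Pt} (h1 : IsPM V m1) (h2 : IsPM V m2)
    {C : Set Pt} (hC : C ∈ Loops (m1, m2)) {x : Pt} {r : ℕ} (hVb : V ⊆ box x r) {f : Pt}
    (hf : (r : ℤ) < dinf x f) : ¬ surr (m1, m2) C f := by
  obtain ⟨hfin, hadj, -⟩ := insideLoop V m1 m2 h1 h2 C hC
  intro hs
  have key : ∀ e1 e2 : ℤ, |e1| + |e2| = 1 →
      (∀ k : ℕ, (r : ℤ) < dinf x (f.1 + k * e1, f.2 + k * e2)) → False := by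
    intro e1 e2 he hfar
    have hnotC : ∀ k : ℕ, ((f.1 + k * e1, f.2 + k * e2) : Pt) ∉ C := by
      intro k hk
      have h3 := hVb (loops_sub h1 h2 hC hk)
      rw [F.mem_box_iff] at h3
      have := hfar k
      linarith
    have hall : ∀ k : ℕ, surr (m1, m2) C (f.1 + k * e1, f.2 + k * e2) := by
      intro k
      induction k with
      | zero => simpa using hs
      | succ k ih =>
        refine (hadj _ _ ?_ (hnotC k) (hnotC (k + 1))).1 ih
        unfold Adj
        simp only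
        have a1 : f.1 + (k : ℤ) * e1 - (f.1 + ((k + 1 : ℕ) : ℤ) * e1) = - e1 := by push_cast; ring
        have a2 : f.2 + (k : ℤ) * e2 - (f.2 + ((k + 1 : ℕ) : ℤ) * e2) = - e2 := by push_cast; ring
        rw [a1, a2, abs_neg, abs_neg]
        exact he
    have hinj : Function.Injective (fun k : ℕ => ((f.1 + k * e1, f.2 + k * e2) : Pt)) := by
      intro k l hkl
      simp only [Prod.mk.injEq, add_right_inj] at hkl
      have : e1 ≠ 0 ∨ e2 ≠ 0 := by
        by_contra hcon
        push Not at hcon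
        rw [hcon.1, hcon.2] at he
        simp at he
      rcases this with h | h
      · exact_mod_cast mul_right_cancel₀ h hkl.1
      · exact_mod_cast mul_right_cancel₀ h hkl.2
    exact Set.infinite_range_of_injective hinj (hfin.subset (by
      rintro _ ⟨k, rfl⟩
      exact ⟨hnotC k, hall k⟩))
  have h3 : (r : ℤ) < |x.1 - f.1| ∨ (r : ℤ) < |x.2 - f.2| := lt_max_iff.1 hf
  rcases h3 with h3 | h3
  · rcases lt_abs.1 h3 with h4 | h4
    · apply key (-1) 0 (by norm_num)
      intro k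
      refine lt_max_iff.2 (Or.inl (lt_abs.2 (Or.inl ?_)))
      simp only
      nlinarith [Int.natCast_nonneg k]
    · apply key 1 0 (by norm_num)
      intro k
      refine lt_max_iff.2 (Or.inl (lt_abs.2 (Or.inr ?_)))
      simp only
      nlinarith [Int.natCast_nonneg k]
  · rcases lt_abs.1 h3 with h4 | h4
    · apply key 0 (-1) (by norm_num)
      intro k
      refine lt_max_iff.2 (Or.inr (lt_abs.2 (Or.inl ?_)))
      simp only
      nlinarith [Int.natCast_nonneg k]
    · apply key 0 1 (by norm_num)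
      intro k
      refine lt_max_iff.2 (Or.inr (lt_abs.2 (Or.inr ?_)))
      simp only
      nlinarith [Int.natCast_nonneg k]

/-- the face four steps outwards -/
def fo (x b : Pt) : Pt :=
  if |b.2 - x.2| ≤ |b.1 - x.1| then
    (if x.1 ≤ b.1 then (b.1 + 4, b.2) else (b.1 - 4, b.2))
  else (if x.2 ≤ b.2 then (b.1, b.2 + 4) else (b.1, b.2 - 4))

lemma fo_cases (x b : Pt) :
    (fo x b = (b.1 + 4, b.2) ∧ dinf x b = b.1 - x.1) ∨
    (fo x b = (b.1 - 4, b.2) ∧ dinf x b = x.1 - b.1) ∨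
    (fo x b = (b.1, b.2 + 4) ∧ dinf x b = b.2 - x.2) ∨
    (fo x b = (b.1, b.2 - 4) ∧ dinf x b = x.2 - b.2) := by
  unfold fo dinf
  rw [abs_sub_comm x.1, abs_sub_comm x.2]
  rcases abs_cases (b.1 - x.1) with ⟨h1, h1'⟩ | ⟨h1, h1'⟩ <;>
    rcases abs_cases (b.2 - x.2) with ⟨h2, h2'⟩ | ⟨h2, h2'⟩ <;>
    rw [h1, h2] <;> split_ifs with h3 h4 h4
  · exact Or.inl ⟨rfl, by omega⟩
  · exact Or.inr (Or.inl ⟨rfl, by omega⟩)
  · exact Or.inr (Or.inr (Or.inl ⟨rfl, by omega⟩))
  · exact Or.inr (Or.inr (Or.inr ⟨rfl, by omega⟩))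
  · exact Or.inl ⟨rfl, by omega⟩
  · exact Or.inr (Or.inl ⟨rfl, by omega⟩)
  · exact Or.inr (Or.inr (Or.inl ⟨rfl, by omega⟩))
  · exact Or.inr (Or.inr (Or.inr ⟨rfl, by omega⟩))
  · exact Or.inl ⟨rfl, by omega⟩
  · exact Or.inr (Or.inl ⟨rfl, by omega⟩)
  · exact Or.inr (Or.inr (Or.inl ⟨rfl, by omega⟩))
  · exact Or.inr (Or.inr (Or.inr ⟨rfl, by omega⟩))
  · exact Or.inl ⟨rfl, by omega⟩
  · exact Or.inr (Or.inl ⟨rfl, by omega⟩)
  · exact Or.inr (Or.inr (Or.inl ⟨rfl, by omega⟩))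
  · exact Or.inr (Or.inr (Or.inr ⟨rfl, by omega⟩))

lemma dinf_fo (x b : Pt) : dinf x b + 4 ≤ dinf x (fo x b) := by
  rcases fo_cases x b with ⟨h1, h2⟩ | ⟨h1, h2⟩ | ⟨h1, h2⟩ | ⟨h1, h2⟩ <;> rw [h1, h2] <;>
    unfold dinf <;> simp only
  · exact le_max_of_le_left (le_trans (by linarith) (neg_le_abs _))
  · exact le_max_of_le_left (le_trans (by linarith) (le_abs_self _))
  · exact le_max_of_le_right (le_trans (by linarith) (neg_le_abs _))
  · exact le_max_of_le_right (le_trans (by linarith) (le_abs_self _))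

lemma dinf_cut_fo (x b v : Pt) (hv : v ∈ cutV b (fo x b)) : dinf x b ≤ dinf x v := by
  unfold cutV at hv
  rw [mem_union, mem_product, mem_product, mem_Ioc, mem_Ioc] at hv
  simp only [mem_insert, mem_singleton] at hv
  rcases fo_cases x b with ⟨h1, h2⟩ | ⟨h1, h2⟩ | ⟨h1, h2⟩ | ⟨h1, h2⟩ <;> rw [h1] at hv <;>
    rw [h2] <;> simp only at hv <;> unfold dinf
  · exact le_max_of_le_left (le_trans (by omega) (neg_le_abs _))
  · exact le_max_of_le_left (le_trans (by omega) (le_abs_self _))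
  · exact le_max_of_le_right (le_trans (by omega) (neg_le_abs _))
  · exact le_max_of_le_right (le_trans (by omega) (le_abs_self _))

lemma card_cut_fo (x b : Pt) : (cutV b (fo x b)).card ≤ 8 := by
  have h := card_cutV_le b (fo x b)
  have h2 : 2 * |b.1 - (fo x b).1| + 2 * |b.2 - (fo x b).2| = 8 := by
    rcases fo_cases x b with ⟨h1, -⟩ | ⟨h1, -⟩ | ⟨h1, -⟩ | ⟨h1, -⟩ <;> rw [h1] <;> simp
  rw [h2] at h
  exact_mod_cast h

/-- all cut signs -/
noncomputable def sgn (As : Finset Pt) (x : Pt) (g : Pt → Pt) (w b : Pt) : ℝ :=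
  (∏ a ∈ As, sc a x w b) * ∏ a ∈ As, sc (g a) (fo x (g a)) w b

lemma abs_sgn (As : Finset Pt) (x : Pt) (g : Pt → Pt) (w b : Pt) : |sgn As x g w b| = 1 := by
  unfold sgn
  rw [abs_mul, Finset.abs_prod, Finset.abs_prod, prod_eq_one, prod_eq_one, one_mul]
  · intro a _; exact abs_sc _ _ _ _
  · intro a _; exact abs_sc _ _ _ _

/-- the constant of the deterministic bound -/
noncomputable def legC (n J s ρ : ℕ) (Mx : ℝ) : ℝ :=
  ((9 * n + (2 * s + 3) ^ 2 : ℕ) : ℝ) ^ (9 * n) *
    (((2 * J ^ 2 + 9 * n : ℕ) : ℝ) ^ (9 * n) * (9 * n).factorial * (3 * (4 * Mx)) ^ (9 * n) *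
      (64 * J * (s + 2 : ℕ) / ρ) ^ (J * (n - 2 * J ^ 2))) *
    (4 ^ (9 * n) * ((9 * n).factorial * Mx ^ (9 * n)))

/-- **The deterministic bound.** -/
theorem leg_ratio_map {T : Temp} {V : Finset Pt} (hVs : Sub T V) (x : Pt) (J s ρ L : ℕ)
    (hJ : 1 ≤ J) (hρ : 128 * J * (s + 2) ≤ ρ) (hL : 2 * ρ + 8 ≤ L)
    (hVL : V ⊆ box x L) (hVr : ∀ v, dinf x v ≤ (L : ℤ) - 5 → v ∈ V)
    (As : Finset Pt) (g : Pt → Pt) (hAs : ∀ a ∈ As, White a ∧ dinf x a ≤ s)
    (hg : ∀ a ∈ As, g a ∈ V ∧ Black (g a) ∧ (L : ℤ) - 3 ≤ dinf x (g a))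
    (hinj : Set.InjOn g As) (heven : Even As.card) {Mx : ℝ} (hMx : 1 ≤ Mx)
    (hM : ∀ w b, w ∈ V → b ∈ V → White w → Black b → (Z (V \ {w, b}) : ℝ) ≤ Mx * Z V) :
    (Z (V \ (As ∪ As.image g)) : ℝ) ≤ legC As.card J s ρ Mx * Z V := by
  classical
  obtain ⟨m0, h0⟩ := Sub.exists_pm hVs
  have hsL : (s : ℤ) ≤ (L : ℤ) - 5 := by
    have : s + 5 ≤ L := by nlinarith
    have : (s : ℤ) + 5 ≤ L := by exact_mod_cast this
    linarith
  have hAsV : ∀ a ∈ As, a ∈ V ∧ White a := fun a ha =>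
    ⟨hVr a ((hAs a ha).2.trans hsL), (hAs a ha).1⟩
  have hgV : ∀ a ∈ As, g a ∈ V ∧ Black (g a) := fun a ha => ⟨(hg a ha).1, (hg a ha).2.1⟩
  have hcut : ∀ m1 m2, IsPM (V \ (As ∪ As.image g)) m1 → IsPM (V \ (As ∪ As.image g)) m2 →
      ∀ C ∈ Loops (m1, m2),
        ∏ w ∈ (V \ (As ∪ As.image g)).filter (fun w => White w ∧ w ∈ C),
          (sgn As x g w (m1 w) * sgn As x g w (m2 w)) =
            ∏ y ∈ As ∪ As.image g, ss (m1, m2) C y := by
    intro m1 m2 h1 h2 C hC
    have hdis : Disjoint As (As.image g) := by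
      rw [Finset.disjoint_left]
      intro a ha ha'
      obtain ⟨b, hb, hba⟩ := mem_image.1 ha'
      have h3 := (hgV b hb).2
      rw [hba] at h3
      exact black_iff_nw.1 h3 (hAsV a ha).2
    rw [prod_union hdis, prod_image hinj]
    have e1 : ∀ w ∈ (V \ (As ∪ As.image g)).filter (fun w => White w ∧ w ∈ C),
        sgn As x g w (m1 w) * sgn As x g w (m2 w) =
        (∏ a ∈ As, (sc a x w (m1 w) * sc a x w (m2 w))) *
          ∏ a ∈ As, (sc (g a) (fo x (g a)) w (m1 w) * sc (g a) (fo x (g a)) w (m2 w)) := by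
      intro w _
      unfold sgn
      rw [prod_mul_distrib, prod_mul_distrib]
      ring
    rw [prod_congr rfl e1, prod_mul_distrib, prod_comm, prod_comm (t := As)]
    have e2 : ∀ a ∈ As, ∏ w ∈ (V \ (As ∪ As.image g)).filter (fun w => White w ∧ w ∈ C),
        (sc a x w (m1 w) * sc a x w (m2 w)) = ss (m1, m2) C a * ss (m1, m2) C x :=
      fun a _ => cutLoop _ m1 m2 h1 h2 C hC a x
    have e3 : ∀ a ∈ As, ∏ w ∈ (V \ (As ∪ As.image g)).filter (fun w => White w ∧ w ∈ C),
        (sc (g a) (fo x (g a)) w (m1 w) * sc (g a) (fo x (g a)) w (m2 w)) =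
          ss (m1, m2) C (g a) := by
      intro a ha
      rw [cutLoop _ m1 m2 h1 h2 C hC (g a) (fo x (g a))]
      have : ss (m1, m2) C (fo x (g a)) = 1 := by
        unfold ss
        rw [if_neg]
        apply not_surr_of_far h1 h2 hC (sdiff_subset.trans hVL)
        have h3 := dinf_fo x (g a)
        have h4 := (hg a ha).2.2
        linarith
      rw [this, mul_one]
    rw [prod_congr rfl e2, prod_congr rfl e3, prod_mul_distrib, prod_const]
    have : ss (m1, m2) C x ^ As.card = 1 := by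
      obtain ⟨k, hk⟩ := heven
      rw [hk, ← two_mul, pow_mul]
      rcases ss_cases (m1, m2) C x with h | h <;> rw [h] <;> norm_num
    rw [this, mul_one]
  have hdet := detR_sub signLoop insideLoop hVs h0 hAsV hgV hinj (sgn As x g)
    (abs_sgn As x g) hcut
  have hkc : Kc As g (sgn As x g) = slotK As g (fun w b => K w b * sgn As x g w b) := by
    funext w b
    rfl
  rw [hkc] at hdet
  rw [← hdet]
  have hsL2 : 2 * ρ + 3 ≤ L - 5 := by omega
  have hL5 : ((L - 5 : ℕ) : ℤ) = (L : ℤ) - 5 := by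
    have : 5 ≤ L := by omega
    push_cast [Nat.cast_sub this]
    ring
  have := slot_bound hVs h0 x J (s + 1) ρ (L - 5) hJ (by omega) hsL2
    (fun v hv => hVr v (by rw [← hL5]; exact hv))
    (fun w b => K w b * sgn As x g w b)
    (fun w b => by rw [abs_mul, abs_sgn, mul_one]; exact abs_K_le w b)
    (fun w b h => K_adj (left_ne_zero_of_mul h))
    As (As.biUnion fun a => cutV (g a) (fo x (g a))) (As.biUnion fun a => cutV a x) g
    (by
      intro w _ hP hQ b
      rw [mem_biUnion] at hP hQ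
      push Not at hP hQ
      have h1 : sgn As x g w b = 1 := by
        unfold sgn
        rw [prod_eq_one, prod_eq_one, one_mul]
        · intro a ha
          exact sc_eq_one b (hP a ha)
        · intro a ha
          exact sc_eq_one b (hQ a ha)
      simp only [h1, mul_one])
    (by
      intro a ha
      refine ⟨(hAsV a ha).1, (hAsV a ha).2, ?_⟩
      have := (hAs a ha).2
      push_cast
      linarith)
    (by
      intro a ha
      refine ⟨(hgV a ha).1, (hgV a ha).2, ?_⟩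
      have := (hg a ha).2.2
      rw [hL5]
      linarith)
    (by
      intro w hw
      obtain ⟨a, ha, hwa⟩ := mem_biUnion.1 hw
      have h1 := dinf_cut_fo x (g a) w hwa
      have h2 := (hg a ha).2.2
      rw [hL5]
      linarith)
    (by
      intro w hw
      obtain ⟨a, ha, hwa⟩ := mem_biUnion.1 hw
      have h1 : w ∈ box x (s + 1) := cutV_subset (F.mem_box_iff.2 (hAs a ha).2)
        (F.mem_box_iff.2 (by rw [G.dinf_self]; positivity)) hwa
      exact F.mem_box_iff.1 h1)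
    hMx hM (9 * As.card) (9 * As.card + (2 * s + 3) ^ 2)
    (by
      have h1 : (As.biUnion fun a => cutV (g a) (fo x (g a))).card ≤ As.card * 8 :=
        card_biUnion_le_card_mul _ _ _ (fun a _ => card_cut_fo x (g a))
      omega)
    (by
      have h1 : (As.biUnion fun a => cutV (g a) (fo x (g a))).card ≤ As.card * 8 :=
        card_biUnion_le_card_mul _ _ _ (fun a _ => card_cut_fo x (g a))
      have h2 : (As.biUnion fun a => cutV a x) ⊆ box x (s + 1) := by
        intro w hw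
        obtain ⟨a, ha, hwa⟩ := mem_biUnion.1 hw
        exact cutV_subset (F.mem_box_iff.2 (hAs a ha).2)
          (F.mem_box_iff.2 (by rw [G.dinf_self]; positivity)) hwa
      have h3 := card_le_card h2
      have h4 : (box x (s + 1)).card = (2 * s + 3) ^ 2 := by
        unfold box
        rw [card_product, Int.card_Icc, Int.card_Icc]
        have e1 : (x.1 + ((s + 1 : ℕ) : ℤ) + 1 - (x.1 - ((s + 1 : ℕ) : ℤ))).toNat = 2 * s + 3 := by
          push_cast; omega
        have e2 : (x.2 + ((s + 1 : ℕ) : ℤ) + 1 - (x.2 - ((s + 1 : ℕ) : ℤ))).toNat = 2 * s + 3 := by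
          push_cast; omega
        rw [e1, e2]; ring
      omega)
    (by
      have : 1 ≤ (2 * s + 3) ^ 2 := Nat.one_le_pow _ _ (by omega)
      omega)
  unfold legC
  exact this

/-- **The deterministic bound**, for sets. -/
theorem leg_ratio {T : Temp} {V : Finset Pt} (hVs : Sub T V) (x : Pt) (J s ρ L : ℕ)
    (hJ : 1 ≤ J) (hρ : 128 * J * (s + 2) ≤ ρ) (hL : 2 * ρ + 8 ≤ L)
    (hVL : V ⊆ box x L) (hVr : ∀ v, dinf x v ≤ (L : ℤ) - 5 → v ∈ V)
    (As Bs : Finset Pt) (hAs : ∀ a ∈ As, White a ∧ dinf x a ≤ s)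
    (hBs : ∀ b ∈ Bs, b ∈ V ∧ Black b ∧ (L : ℤ) - 3 ≤ dinf x b)
    (hcard : As.card = Bs.card) (heven : Even As.card) {Mx : ℝ} (hMx : 1 ≤ Mx)
    (hM : ∀ w b, w ∈ V → b ∈ V → White w → Black b → (Z (V \ {w, b}) : ℝ) ≤ Mx * Z V) :
    (Z (V \ (As ∪ Bs)) : ℝ) ≤ legC As.card J s ρ Mx * Z V := by
  classical
  obtain ⟨e⟩ : Nonempty (As ≃ Bs) := ⟨Finset.equivOfCardEq hcard⟩
  set g : Pt → Pt := fun v => if h : v ∈ As then (e ⟨v, h⟩ : Pt) else v with hg
  have hgv : ∀ v (h : v ∈ As), g v = (e ⟨v, h⟩ : Pt) := by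
    intro v h
    rw [hg]
    simp only
    rw [dif_pos h]
  have himg : As.image g = Bs := by
    ext b
    rw [mem_image]
    constructor
    · rintro ⟨a, ha, rfl⟩
      rw [hgv a ha]
      exact (e ⟨a, ha⟩).2
    · intro hb
      refine ⟨(e.symm ⟨b, hb⟩ : Pt), (e.symm ⟨b, hb⟩).2, ?_⟩
      rw [hgv _ (e.symm ⟨b, hb⟩).2]
      simp
  rw [← himg]
  apply leg_ratio_map hVs x J s ρ L hJ hρ hL hVL hVr As g hAs _ _ heven hMx hM
  · intro a ha
    apply hBs
    rw [hgv a ha]
    exact (e ⟨a, ha⟩).2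
  · intro a ha b hb hab
    rw [hgv a ha, hgv b hb] at hab
    have := e.injective (Subtype.ext hab)
    exact congrArg Subtype.val this

end Vale.Agent.P155.T211
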