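import Vale.Agent.P155.T211.Leg
import Vale.Agent.P155.E1.Interior
import Vale.Agent.P155.E.Point

/-!
# P155, LEG: the final form

`leg`: the probability that `n0(η,p)` disjoint directed arcs go from a box of radius `s` to
distance `L ≥ s R^η` is at most `C R^{-p}`.
-/

namespace Vale.Agent.P155.T211

open Finset F Skel A4 E1 SW

/-- numerical bound of the constants -/
lemma legC_le (n j s ρ R : ℕ) (m : ℕ) (hR : 1 ≤ R) (hs : 1 ≤ s) (hsR : s ≤ 2 * R) {Y : ℝ}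
    (_hY0 : 0 ≤ Y) (hY : (64 * j * (s + 2 : ℕ) / ρ : ℝ) ≤ Y) :
    legC n j s ρ ((R : ℝ) ^ m) ≤
      ((36 * n + 100 : ℝ) ^ (9 * n) * ((2 * j ^ 2 + 9 * n : ℕ) : ℝ) ^ (9 * n) *
        ((9 * n).factorial : ℝ) ^ 2 * 48 ^ (9 * n)) *
        ((R : ℝ) ^ ((18 + 18 * m) * n) * Y ^ (j * (n - 2 * j ^ 2))) := by
  have hR' : (1 : ℝ) ≤ R := by exact_mod_cast hR
  have hs' : (1 : ℝ) ≤ s := by exact_mod_cast hs
  have hsR' : (s : ℝ) ≤ 2 * R := by exact_mod_cast hsR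
  have h1 : ((9 * n + (2 * s + 3) ^ 2 : ℕ) : ℝ) ≤ (36 * n + 100) * (R : ℝ) ^ 2 := by
    push_cast
    have h2 : (1 : ℝ) ≤ (R : ℝ) ^ 2 := one_le_pow₀ hR'
    have h3 : (2 * (s : ℝ) + 3) ^ 2 ≤ 100 * (R : ℝ) ^ 2 := by
      have : 2 * (s : ℝ) + 3 ≤ 10 * R := by linarith
      calc (2 * (s : ℝ) + 3) ^ 2 ≤ (10 * (R : ℝ)) ^ 2 := by gcongr
        _ = 100 * (R : ℝ) ^ 2 := by ring
    have h4 : (9 * n : ℝ) ≤ 36 * n * (R : ℝ) ^ 2 := by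
      have : (0 : ℝ) ≤ n := Nat.cast_nonneg n
      nlinarith
    linarith
  have h0 : (0 : ℝ) ≤ (64 * j * (s + 2 : ℕ) / ρ : ℝ) := by positivity
  unfold legC
  calc ((9 * n + (2 * s + 3) ^ 2 : ℕ) : ℝ) ^ (9 * n) *
        (((2 * j ^ 2 + 9 * n : ℕ) : ℝ) ^ (9 * n) * (9 * n).factorial *
          (3 * (4 * (R : ℝ) ^ m)) ^ (9 * n) *
        (64 * j * (s + 2 : ℕ) / ρ) ^ (j * (n - 2 * j ^ 2))) *
        (4 ^ (9 * n) * ((9 * n).factorial * ((R : ℝ) ^ m) ^ (9 * n)))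
      ≤ ((36 * n + 100) * (R : ℝ) ^ 2) ^ (9 * n) *
        (((2 * j ^ 2 + 9 * n : ℕ) : ℝ) ^ (9 * n) * (9 * n).factorial *
          (3 * (4 * (R : ℝ) ^ m)) ^ (9 * n) * Y ^ (j * (n - 2 * j ^ 2))) *
        (4 ^ (9 * n) * ((9 * n).factorial * ((R : ℝ) ^ m) ^ (9 * n))) := by gcongr
    _ = _ := by
        have e1 : (48 : ℝ) ^ (9 * n) = 3 ^ (9 * n) * 4 ^ (9 * n) * 4 ^ (9 * n) := by
          rw [← mul_pow, ← mul_pow]; norm_num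
        have e2 : (R : ℝ) ^ ((18 + 18 * m) * n) = (R : ℝ) ^ (2 * (9 * n)) *
            (R : ℝ) ^ (m * (9 * n)) * (R : ℝ) ^ (m * (9 * n)) := by
          rw [← pow_add, ← pow_add]
          congr 1
          ring
        rw [e1, e2, mul_pow, mul_pow, mul_pow, ← pow_mul, ← pow_mul]
        ring

/-- the main term -/
lemma main_term (η p : ℝ) (m j n : ℕ) (hj1 : 1 ≤ j) (hn : n = 4 * j ^ 2)
    (hjη : 2 * (26 + 19 * (m : ℝ)) + p ≤ η * j) (_hη : 0 < η) (hp : 0 < p) : ∃ A1 : ℝ, 0 ≤ A1 ∧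
    ∀ R s L ρ : ℕ, 1 ≤ R → 1 ≤ s → L ≤ R → s ≤ L → (s : ℝ) * (R : ℝ) ^ η ≤ L → L ≤ 4 * ρ → 1 ≤ ρ →
    (((2 * L + 1 : ℕ) : ℝ) ^ 2) ^ (4 * n) *
      (legC n j s ρ ((R : ℝ) ^ m) * (n.factorial * ((R : ℝ) ^ m) ^ n)) ≤
        A1 * (R : ℝ) ^ (-p) := by
  obtain ⟨A0, hA00, hA0⟩ : ∃ A0 : ℝ, 0 ≤ A0 ∧ A0 = (36 * n + 100 : ℝ) ^ (9 * n) *
      ((2 * j ^ 2 + 9 * n : ℕ) : ℝ) ^ (9 * n) *
        ((9 * n).factorial : ℝ) ^ 2 * 48 ^ (9 * n) := ⟨_, by positivity, rfl⟩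
  refine ⟨5 ^ (8 * n) * (A0 * (768 * j) ^ (j * (n - 2 * j ^ 2)) * n.factorial), by positivity, ?_⟩
  intro R s L ρ hR hs hLRN hsL hL hρ2 hρ0
  have hR' : (1 : ℝ) ≤ R := by exact_mod_cast hR
  have hR0 : (0 : ℝ) < R := by linarith
  have hs' : (1 : ℝ) ≤ s := by exact_mod_cast hs
  have hj' : (1 : ℝ) ≤ j := by exact_mod_cast hj1
  have hLR : (L : ℝ) ≤ R := by exact_mod_cast hLRN
  have hX0 : (0 : ℝ) < (R : ℝ) ^ η := Real.rpow_pos_of_pos hR0 _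
  have hρR : (0 : ℝ) < ρ := by exact_mod_cast hρ0
  have hY : (64 * j * (s + 2 : ℕ) / ρ : ℝ) ≤ 768 * j / (R : ℝ) ^ η := by
    have h1 : (L : ℝ) ≤ 4 * ρ := by exact_mod_cast hρ2
    rw [div_le_div_iff₀ hρR hX0]
    push_cast
    have h2 : (s : ℝ) + 2 ≤ 3 * s := by linarith
    calc 64 * (j : ℝ) * (s + 2) * (R : ℝ) ^ η ≤ 64 * j * (3 * s) * (R : ℝ) ^ η := by gcongr
      _ = 192 * j * (s * (R : ℝ) ^ η) := by ring
      _ ≤ 192 * j * L := by gcongr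
      _ ≤ 192 * j * (4 * ρ) := by gcongr
      _ = 768 * j * ρ := by ring
  have hleg := legC_le n j s ρ R m hR hs (by omega) (by positivity) hY
  rw [← hA0] at hleg
  have h1 : (((2 * L + 1 : ℕ) : ℝ) ^ 2) ^ (4 * n) ≤ 5 ^ (8 * n) * (R : ℝ) ^ (8 * n) := by
    rw [← pow_mul, ← mul_pow]
    have e : 2 * (4 * n) = 8 * n := by ring
    rw [e]
    gcongr
    push_cast
    linarith
  obtain ⟨e, he⟩ : ∃ e : ℕ, e = j * (n - 2 * j ^ 2) := ⟨_, rfl⟩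
  have heR : (e : ℝ) = 2 * (j : ℝ) ^ 2 * j := by
    have e3 : n - 2 * j ^ 2 = 2 * j ^ 2 := by omega
    rw [he, e3]
    push_cast
    ring
  rw [← he] at hleg ⊢
  have h2 : (768 * (j : ℝ) / (R : ℝ) ^ η) ^ e =
      (768 * j) ^ e * ((R : ℝ) ^ η) ^ (-(e : ℝ)) := by
    rw [div_pow, Real.rpow_neg hX0.le, Real.rpow_natCast]
    rw [div_eq_mul_inv]
  have h3 : (R : ℝ) ^ (8 * n) * ((R : ℝ) ^ ((18 + 18 * m) * n) *
      ((R : ℝ) ^ η) ^ (-(e : ℝ))) * ((R : ℝ) ^ m) ^ n ≤ (R : ℝ) ^ (-p) := by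
    have e1 : (R : ℝ) ^ (8 * n) * ((R : ℝ) ^ ((18 + 18 * m) * n) *
      ((R : ℝ) ^ η) ^ (-(e : ℝ))) * ((R : ℝ) ^ m) ^ n =
        (R : ℝ) ^ (((26 + 19 * m) * n : ℕ) : ℝ) * (R : ℝ) ^ (η * (-(e : ℝ))) := by
      rw [Real.rpow_mul hR0.le, Real.rpow_natCast, ← pow_mul]
      have e2 : (R : ℝ) ^ ((26 + 19 * m) * n) =
          (R : ℝ) ^ (8 * n) * (R : ℝ) ^ ((18 + 18 * m) * n) * (R : ℝ) ^ (m * n) := by
        rw [← pow_add, ← pow_add]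
        congr 1
        ring
      rw [e2]
      ring
    rw [e1, ← Real.rpow_add hR0]
    apply Real.rpow_le_rpow_of_exponent_le hR'
    rw [heR, hn]
    push_cast
    have h4 : (1 : ℝ) ≤ (j : ℝ) ^ 2 := one_le_pow₀ hj'
    have h5 := mul_le_mul_of_nonneg_left hjη (by positivity : (0 : ℝ) ≤ 2 * (j : ℝ) ^ 2)
    have h6 : p ≤ (j : ℝ) ^ 2 * p := by nlinarith
    linarith
  calc (((2 * L + 1 : ℕ) : ℝ) ^ 2) ^ (4 * n) *
    (legC n j s ρ ((R : ℝ) ^ m) * (n.factorial * ((R : ℝ) ^ m) ^ n))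
      ≤ (5 ^ (8 * n) * (R : ℝ) ^ (8 * n)) *
        ((A0 * ((R : ℝ) ^ ((18 + 18 * m) * n) * (768 * j / (R : ℝ) ^ η) ^ e)) *
          (n.factorial * ((R : ℝ) ^ m) ^ n)) := by
        apply mul_le_mul h1 _ _ (by positivity)
        · exact mul_le_mul_of_nonneg_right hleg (by positivity)
        · have := legC_nonneg n j s ρ (Mx := (R : ℝ) ^ m) (by positivity)
          positivity
    _ = (5 ^ (8 * n) * (A0 * (768 * j) ^ e * n.factorial)) *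
        ((R : ℝ) ^ (8 * n) * ((R : ℝ) ^ ((18 + 18 * m) * n) *
        ((R : ℝ) ^ η) ^ (-(e : ℝ))) * ((R : ℝ) ^ m) ^ n) := by
        rw [h2]; ring
    _ ≤ (5 ^ (8 * n) * (A0 * (768 * j) ^ e * n.factorial)) * (R : ℝ) ^ (-p) :=
        mul_le_mul_of_nonneg_left h3 (by positivity)

/-- **LEG.** -/
theorem leg (hB : B_mono) (η p : ℝ) (hη : 0 < η) (hp : 0 < p) : ∃ n0 : ℕ, ∃ C : ℝ, 0 < C ∧
    ∀ (R : ℕ) (T : Temp), 1 ≤ R → Fits T R → ∀ (x : Pt) (s L : ℕ), 1 ≤ s →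
      (s : ℝ) * (R : ℝ) ^ η ≤ L → C * L ≤ dF T.faceSet x →
      Pr T.V (ArcEv T.V n0 x s L) ≤ C * (R : ℝ) ^ (-p) := by
  obtain ⟨C1, hC1, hap⟩ := apriori hB
  obtain ⟨m, hmp⟩ : ∃ m : ℕ, p + 5 ≤ m := exists_nat_ge _
  obtain ⟨j, hj1, hjη⟩ : ∃ j : ℕ, 1 ≤ j ∧ 2 * (26 + 19 * (m : ℝ)) + p ≤ η * j := by
    obtain ⟨j, hj⟩ := exists_nat_ge ((2 * (26 + 19 * (m : ℝ)) + p) / η)
    refine ⟨j + 1, by omega, ?_⟩
    rw [div_le_iff₀ hη] at hj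
    push_cast
    nlinarith
  obtain ⟨n, hn⟩ : ∃ n : ℕ, n = 4 * j ^ 2 := ⟨_, rfl⟩
  have hneven : Even n := ⟨2 * j ^ 2, by rw [hn]; ring⟩
  obtain ⟨A1, hA10, hmt⟩ := main_term η p m j n hj1 hn hjη hη hp
  have hj' : (1 : ℝ) ≤ j := by exact_mod_cast hj1
  obtain ⟨Kc, hKc⟩ : ∃ Kc : ℝ, Kc = 2000 * j := ⟨_, rfl⟩
  have hKc0 : 0 < Kc := by rw [hKc]; linarith
  obtain ⟨Kp, hKp0, hKp⟩ : ∃ Kp : ℝ, 0 ≤ Kp ∧ Kp = Kc ^ (p / η) := ⟨_, by positivity, rfl⟩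
  obtain ⟨C, hC⟩ : ∃ C : ℝ, C = 3 + 2 * C1 + Kp + (486 * C1 + A1) := ⟨_, rfl⟩
  have hC3 : 3 ≤ C := by rw [hC]; linarith
  have hCC1 : 2 * C1 ≤ C := by rw [hC]; linarith
  have hCK : Kp ≤ C := by rw [hC]; linarith
  have hCA : 486 * C1 + A1 ≤ C := by rw [hC]; linarith
  have hC0 : 0 < C := by linarith
  refine ⟨n, C, hC0, ?_⟩
  intro R T hR hfit x s L hs hL hd
  have hR' : (1 : ℝ) ≤ R := by exact_mod_cast hR
  have hR0 : (0 : ℝ) < R := by linarith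
  have hs' : (1 : ℝ) ≤ s := by exact_mod_cast hs
  have hX1 : 1 ≤ (R : ℝ) ^ η := Real.one_le_rpow hR' hη.le
  have hsL : (s : ℝ) ≤ L := by
    calc (s : ℝ) = s * 1 := by ring
      _ ≤ s * (R : ℝ) ^ η := by gcongr
      _ ≤ L := hL
  have hL1 : (1 : ℝ) ≤ L := hs'.trans hsL
  have hdR : (dF T.faceSet x : ℝ) ≤ R + 1 := by exact_mod_cast E.dF_le_of_fits hfit x
  have hLR : (L : ℝ) ≤ R := by
    have : 3 * (L : ℝ) ≤ C * L := by gcongr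
    linarith
  have hRp : (0 : ℝ) < (R : ℝ) ^ (-p) := Real.rpow_pos_of_pos hR0 _
  by_cases hbig : Kc ≤ (R : ℝ) ^ η
  swap
  · -- small `R`
    push Not at hbig
    have h1 : Pr T.V (ArcEv T.V n x s L) ≤ 1 := E.Pr_le_one _ _
    have h2 : (R : ℝ) ^ p ≤ Kp := by
      rw [hKp]
      calc (R : ℝ) ^ p = ((R : ℝ) ^ η) ^ (p / η) := by
            rw [← Real.rpow_mul hR0.le]; congr 1; field_simp
        _ ≤ Kc ^ (p / η) := Real.rpow_le_rpow (by positivity) hbig.le (by positivity)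
    have h3 : (R : ℝ) ^ p * (R : ℝ) ^ (-p) = 1 := by
      rw [← Real.rpow_add hR0]; simp
    calc Pr T.V (ArcEv T.V n x s L) ≤ 1 := h1
      _ = (R : ℝ) ^ p * (R : ℝ) ^ (-p) := h3.symm
      _ ≤ C * (R : ℝ) ^ (-p) := by
          apply mul_le_mul_of_nonneg_right _ hRp.le
          exact h2.trans hCK
  -- large `R`
  have hLbig : 2000 * (j : ℝ) * s ≤ L := by
    calc 2000 * (j : ℝ) * s = s * Kc := by rw [hKc]; ring
      _ ≤ s * (R : ℝ) ^ η := by gcongr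
      _ ≤ L := hL
  have hLbigN : 2000 * j * s ≤ L := by exact_mod_cast hLbig
  have hjs : 1 ≤ j * s := Nat.one_le_iff_ne_zero.2 (by positivity)
  obtain ⟨ρ, hρ⟩ : ∃ ρ : ℕ, ρ = (L - 8) / 2 := ⟨_, rfl⟩
  have h2000 : 2000 * (j * s) ≤ L := by rw [← mul_assoc]; exact hLbigN
  have hρ1 : 2 * ρ + 8 ≤ L := by omega
  have hρ2 : L ≤ 4 * ρ := by omega
  have hρ3 : 128 * j * (s + 2) ≤ ρ := by
    have h2 : 128 * j * (s + 2) ≤ 384 * (j * s) := by nlinarith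
    omega
  have hT : ∀ v, dinf x v ≤ L → v ∈ T.V := by
    intro v hv
    apply E1.mem_V_of_dF (n := L) _ (F.mem_box_iff.2 hv)
    have h3 : 3 * (L : ℝ) ≤ C * L := by gcongr
    have : (L : ℝ) + 1 < dF T.faceSet x := by linarith
    exact_mod_cast this
  have hMx : (1 : ℝ) ≤ (R : ℝ) ^ m := one_le_pow₀ hR'
  have hmain := leg_prob T n x s L j ρ hneven hj1 hρ3 hρ1 hT hMx
  have hbad := hap T x L (by
    have h3 : 2 * C1 * (L : ℝ) ≤ C * L := by gcongr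
    have h4 : C1 * (1 + L) ≤ 2 * C1 * L := by nlinarith
    linarith) ((R : ℝ) ^ m) (by positivity)
  have hb1 : C1 * (1 + (L : ℝ)) ^ 5 / (R : ℝ) ^ m ≤ 243 * C1 * (R : ℝ) ^ (-p) := by
    have h1 : (1 + (L : ℝ)) ^ 5 ≤ (3 * (R : ℝ)) ^ 5 := by
      gcongr
      linarith
    have h2 : (R : ℝ) ^ 5 / (R : ℝ) ^ m ≤ (R : ℝ) ^ (-p) := by
      rw [← Real.rpow_natCast, ← Real.rpow_natCast, ← Real.rpow_sub hR0]
      apply Real.rpow_le_rpow_of_exponent_le hR'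
      push_cast
      linarith
    calc C1 * (1 + (L : ℝ)) ^ 5 / (R : ℝ) ^ m ≤ C1 * (3 * (R : ℝ)) ^ 5 / (R : ℝ) ^ m := by
          gcongr
      _ = 243 * C1 * ((R : ℝ) ^ 5 / (R : ℝ) ^ m) := by ring
      _ ≤ 243 * C1 * (R : ℝ) ^ (-p) := by gcongr
  have hq := hmt R s L ρ hR hs (by exact_mod_cast hLR) (by exact_mod_cast hsL) hL hρ2 (by omega)
  calc Pr T.V (ArcEv T.V n x s L) ≤ _ := hmain
    _ ≤ 2 * (243 * C1 * (R : ℝ) ^ (-p)) + A1 * (R : ℝ) ^ (-p) := by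
        refine add_le_add ?_ ?_
        · exact mul_le_mul_of_nonneg_left (hbad.trans hb1) (by norm_num)
        · exact hq
    _ = (486 * C1 + A1) * (R : ℝ) ^ (-p) := by ring
    _ ≤ C * (R : ℝ) ^ (-p) := mul_le_mul_of_nonneg_right hCA hRp.le

end Vale.Agent.P155.T211
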