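import Vale.Agent.P155.A4.Mark
import Vale.Agent.P155.A4.Main
import Vale.Agent.P155.E.Prob
import Vale.Agent.P155.F.Kbound
import Vale.Agent.P155.F.FPair

/-!
# P155, LEG: the a priori bound of the monomer ratios in a box, given the outside
-/

namespace Vale.Agent.P155.T211

open Finset F Skel A4 E1

/-- the atom is determined by the extension -/
theorem ext1_atom' {V B : Finset Pt} {w b : Pt} {m m2 M : Pt → Pt} (hm : m ∈ PM V)
    (hm2 : m2 ∈ PM V) (hw : w ∈ Vin V B m) (hw2 : w ∈ Vin V B m2) (hb : b ∈ Vin V B m)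
    (hb2 : b ∈ Vin V B m2)
    (h : M ∈ ext1 V B w b m) (h2 : M ∈ ext1 V B w b m2) : m2 ∈ atom1 V B m := by
  obtain ⟨hM, hMm⟩ := mem_ext1.1 h
  obtain ⟨_, hMm2⟩ := mem_ext1.1 h2
  have hMP := mem_PM.1 hM
  have key : ∀ m ∈ PM V, (∀ v, v ∉ Vin V B m → M v = m v) → ∀ v, v ∈ V \ {w, b} →
      (v ∈ Vin V B m ↔ v ∈ B ∧ M v ∈ B) := by
    intro m hm hMm v hv
    have hmP := mem_PM.1 hm
    constructor
    · intro hv1
      refine ⟨(mem_Vin.1 hv1).2.1, ?_⟩
      by_contra hc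
      have h3 : M v ∉ Vin V B m := fun h4 => hc (mem_Vin.1 h4).2.1
      have h4 := hMm _ h3
      rw [hMP.invol] at h4
      have h5 : m v = M v := (congrArg m h4).trans (hmP.invol _)
      exact hc (h5 ▸ (mem_Vin.1 hv1).2.2)
    · rintro ⟨h3, h4⟩
      by_contra hc
      have h5 := hMm v hc
      apply hc
      rw [mem_Vin]
      exact ⟨(mem_sdiff.1 hv).1, h3, h5 ▸ h4⟩
  have hVin : ∀ v, v ∈ Vin V B m ↔ v ∈ Vin V B m2 := by
    intro v
    by_cases hv : v ∈ V \ {w, b}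
    · rw [key m hm hMm v hv, key m2 hm2 hMm2 v hv]
    · by_cases hvV : v ∈ V
      · have : v = w ∨ v = b := by
          by_contra hc
          apply hv
          rw [mem_sdiff, mem_insert, mem_singleton]
          exact ⟨hvV, hc⟩
        rcases this with rfl | rfl
        · exact ⟨fun _ => hw2, fun _ => hw⟩
        · exact ⟨fun _ => hb2, fun _ => hb⟩
      · exact ⟨fun h => absurd (mem_Vin.1 h).1 hvV, fun h => absurd (mem_Vin.1 h).1 hvV⟩
  rw [mem_atom1]
  refine ⟨hm2, fun v hv => ?_⟩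
  rw [← hMm2 v (fun h => hv ((hVin v).2 h)), hMm v hv]

open Classical in
/-- average of the monomer ratio, at all points -/
theorem EM_ind (V B : Finset Pt) (w b : Pt) (hZ : 0 < Z V) :
    Ex1 V (fun m => if w ∈ Vin V B m ∧ b ∈ Vin V B m then
      (Z (Vin V B m \ {w, b}) : ℝ) / Z (Vin V B m) else 0) ≤ (Z (V \ {w, b}) : ℝ) / Z V := by
  have hZ' : (0 : ℝ) < Z V := by exact_mod_cast hZ
  unfold Ex1
  rw [inv_mul_eq_div]
  apply div_le_div_of_nonneg_right _ hZ'.le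
  set Y := (PM V).filter (fun m => w ∈ Vin V B m ∧ b ∈ Vin V B m) with hY
  have hYm : ∀ m ∈ Y, m ∈ PM V ∧ w ∈ Vin V B m ∧ b ∈ Vin V B m := fun m hm => mem_filter.1 hm
  calc ∑ m ∈ PM V, (if w ∈ Vin V B m ∧ b ∈ Vin V B m then
        (Z (Vin V B m \ {w, b}) : ℝ) / Z (Vin V B m) else 0)
      = ∑ m ∈ Y, (Z (Vin V B m \ {w, b}) : ℝ) / Z (Vin V B m) := by rw [hY, sum_filter]
    _ ≤ ∑ m ∈ Y, ∑ M ∈ ext1 V B w b m, ((atom1 V B m).card : ℝ)⁻¹ := by
        apply sum_le_sum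
        intro m hm
        obtain ⟨h1, h2, h3⟩ := hYm m hm
        rw [sum_const, nsmul_eq_mul, card_atom1 h1, div_eq_mul_inv]
        apply mul_le_mul_of_nonneg_right _ (by positivity)
        exact_mod_cast Z_le_ext1 h1 h2 h3
    _ = ∑ M ∈ PM (V \ {w, b}), ∑ m ∈ Y.filter (fun m => M ∈ ext1 V B w b m),
          ((atom1 V B m).card : ℝ)⁻¹ := by
        apply sum_comm'
        intro m M
        constructor
        · rintro ⟨h1, h2⟩
          exact ⟨mem_filter.2 ⟨h1, h2⟩, (mem_ext1.1 h2).1⟩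
        · rintro ⟨h1, _⟩
          exact mem_filter.1 h1
    _ ≤ ∑ M ∈ PM (V \ {w, b}), 1 := by
        apply sum_le_sum
        intro M _
        rcases (Y.filter (fun m => M ∈ ext1 V B w b m)).eq_empty_or_nonempty with he | ⟨m0, hm0⟩
        · rw [he, sum_empty]; exact zero_le_one
        · obtain ⟨hm0Y, hm0M⟩ := mem_filter.1 hm0
          obtain ⟨hm0V, hm0w, hm0b⟩ := hYm m0 hm0Y
          have hsub : Y.filter (fun m => M ∈ ext1 V B w b m) ⊆ atom1 V B m0 := by
            intro m hm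
            obtain ⟨hmY, hmM⟩ := mem_filter.1 hm
            obtain ⟨hmV, hmw, hmb⟩ := hYm m hmY
            exact ext1_atom' hm0V hmV hm0w hmw hm0b hmb hm0M hmM
          calc ∑ m ∈ Y.filter (fun m => M ∈ ext1 V B w b m), ((atom1 V B m).card : ℝ)⁻¹
              = ∑ m ∈ Y.filter (fun m => M ∈ ext1 V B w b m), ((atom1 V B m0).card : ℝ)⁻¹ := by
                apply sum_congr rfl
                intro m hm
                rw [atom1_eq hm0V (hsub hm)]
            _ ≤ (atom1 V B m0).card * ((atom1 V B m0).card : ℝ)⁻¹ := by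
                rw [sum_const, nsmul_eq_mul]
                apply mul_le_mul_of_nonneg_right _ (by positivity)
                exact_mod_cast card_le_card hsub
            _ ≤ 1 := mul_inv_le_one
    _ = Z (V \ {w, b}) := by
        rw [sum_const, nsmul_eq_mul, mul_one]
        rfl

/-- the a priori bound on the monomer ratios -/
def AP (V : Finset Pt) (Mx : ℝ) : Prop :=
  ∀ w b, w ∈ V → b ∈ V → White w → Black b → (Z (V \ {w, b}) : ℝ) ≤ Mx * Z V

theorem card_box' (x : Pt) (L : ℕ) : (box x L).card = (2 * L + 1) ^ 2 := by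
  unfold box
  rw [card_product, Int.card_Icc, Int.card_Icc]
  have e1 : (x.1 + (L : ℤ) + 1 - (x.1 - (L : ℤ))).toNat = 2 * L + 1 := by omega
  have e2 : (x.2 + (L : ℤ) + 1 - (x.2 - (L : ℤ))).toNat = 2 * L + 1 := by omega
  rw [e1, e2]; ring

theorem sub_self' (T : Temp) : Sub T T.V := by
  obtain ⟨m, hm⟩ := F.exists_pm T
  exact ⟨m, mem_PM.2 hm, fun v hv => ⟨hv, IsPM.mem hm hv⟩⟩

open Classical in
/-- **The a priori event.** -/
theorem apriori (hB : B_mono) : ∃ C : ℝ, 0 < C ∧ ∀ (T : Temp) (x : Pt) (L : ℕ),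
    C * (1 + L) ≤ dF T.faceSet x → ∀ Mx : ℝ, 0 < Mx →
    Ex1 T.V (fun m => if AP (Vin T.V (box x L) m) Mx then (0 : ℝ) else 1) ≤
      C * (1 + L) ^ 5 / Mx := by
  obtain ⟨C1, hC1⟩ := hB
  refine ⟨32 * |C1| + 1, by positivity, ?_⟩
  intro T x L hd Mx hMx
  have hZ : 0 < Z T.V := Sub.Z_pos (sub_self' T)
  have hZ' : (0 : ℝ) < Z T.V := by exact_mod_cast hZ
  set rt : (Pt → Pt) → Pt → Pt → ℝ := fun m w b =>
    if w ∈ Vin T.V (box x L) m ∧ b ∈ Vin T.V (box x L) m then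
      (Z (Vin T.V (box x L) m \ {w, b}) : ℝ) / Z (Vin T.V (box x L) m) else 0 with hrt
  have hrt0 : ∀ m w b, 0 ≤ rt m w b := by
    intro m w b
    rw [hrt]
    simp only
    split_ifs
    · positivity
    · exact le_rfl
  set D : Finset (Pt × Pt) := (box x L ×ˢ box x L).filter (fun q => White q.1 ∧ Black q.2) with hD
  have h1 : ∀ m ∈ PM T.V, (if AP (Vin T.V (box x L) m) Mx then (0 : ℝ) else 1) ≤
      Mx⁻¹ * ∑ q ∈ D, rt m q.1 q.2 := by
    intro m hm
    split_ifs with hA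
    · exact mul_nonneg (by positivity) (sum_nonneg fun q _ => hrt0 m q.1 q.2)
    · unfold AP at hA
      push Not at hA
      obtain ⟨w, b, hw, hb, hwW, hbB, hlt⟩ := hA
      have hpos : (0 : ℝ) < Z (Vin T.V (box x L) m) := by
        have : 0 < Z (Vin T.V (box x L) m) :=
          card_pos.2 (PM_Vin_nonempty (mem_PM.1 hm))
        exact_mod_cast this
      have h2 : Mx ≤ rt m w b := by
        rw [hrt]
        simp only
        rw [if_pos ⟨hw, hb⟩, le_div_iff₀ hpos]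
        exact hlt.le
      have hqD : ((w, b) : Pt × Pt) ∈ D :=
        mem_filter.2 ⟨mem_product.2 ⟨(mem_Vin.1 hw).2.1, (mem_Vin.1 hb).2.1⟩, hwW, hbB⟩
      have h3 : rt m w b ≤ ∑ q ∈ D, rt m q.1 q.2 :=
        single_le_sum (f := fun q : Pt × Pt => rt m q.1 q.2) (fun q _ => hrt0 m q.1 q.2) hqD
      rw [inv_mul_eq_div, le_div_iff₀ hMx, one_mul]
      exact h2.trans h3
  have h2 : Ex1 T.V (fun m => if AP (Vin T.V (box x L) m) Mx then (0 : ℝ) else 1) ≤
      Mx⁻¹ * ∑ q ∈ D, Ex1 T.V (fun m => rt m q.1 q.2) := by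
    have e : Mx⁻¹ * ∑ q ∈ D, Ex1 T.V (fun m => rt m q.1 q.2) =
        Ex1 T.V (fun m => Mx⁻¹ * ∑ q ∈ D, rt m q.1 q.2) := by
      unfold Ex1
      simp only [← mul_sum]
      rw [sum_comm]
      ring
    rw [e]
    unfold Ex1
    exact mul_le_mul_of_nonneg_left (sum_le_sum h1) (by positivity)
  have h3 : ∀ q ∈ D, Ex1 T.V (fun m => rt m q.1 q.2) ≤ 2 * |C1| * (1 + L) := by
    intro q hq
    obtain ⟨hq1, hqW, hqB⟩ := mem_filter.1 hq
    obtain ⟨hqa, hqb⟩ := mem_product.1 hq1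
    by_cases hV : q.1 ∈ T.V ∧ q.2 ∈ T.V
    · refine (EM_ind T.V (box x L) q.1 q.2 hZ).trans ?_
      have hdn : dn q.2 q.1 ≤ 2 * L := by
        have a1 := dn_tri q.2 x q.1
        have a2 := mem_box_dn.1 hqa
        have a3 := mem_box_dn.1 hqb
        rw [dn_symm] at a3
        omega
      have hdF : dF T.faceSet x ≤ dF T.faceSet q.1 + L :=
        (dF_le_add _ _ _).trans (Nat.add_le_add_left (mem_box_dn.1 hqa) _)
      have hdF' : (dF T.faceSet x : ℝ) ≤ dF T.faceSet q.1 + L := by exact_mod_cast hdF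
      have hdn' : (dn q.2 q.1 : ℝ) ≤ 2 * L := by exact_mod_cast hdn
      have habs := le_abs_self C1
      have habs0 := abs_nonneg C1
      have hL0 : (0 : ℝ) ≤ L := Nat.cast_nonneg L
      have hb := hC1 T q.1 q.2 hqW hqB hV.1 hV.2 (by
        have h5 : C1 * (1 + dn q.2 q.1) ≤ |C1| * (1 + 2 * L) := by
          calc C1 * (1 + dn q.2 q.1) ≤ |C1| * (1 + dn q.2 q.1) := by gcongr
            _ ≤ _ := by gcongr
        have h6 : |C1| * (1 + 2 * L) + L ≤ (32 * |C1| + 1) * (1 + L) := by nlinarith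
        linarith)
      refine hb.trans ?_
      calc C1 * (1 + dn q.2 q.1) ≤ |C1| * (1 + 2 * L) := by
            calc C1 * (1 + dn q.2 q.1) ≤ |C1| * (1 + dn q.2 q.1) := by gcongr
              _ ≤ _ := by gcongr
        _ ≤ 2 * |C1| * (1 + L) := by nlinarith
    · have : Ex1 T.V (fun m => rt m q.1 q.2) = 0 := by
        unfold Ex1
        rw [sum_eq_zero, mul_zero]
        intro m _
        rw [hrt]
        simp only
        rw [if_neg]
        rintro ⟨h4, h5⟩
        exact hV ⟨(mem_Vin.1 h4).1, (mem_Vin.1 h5).1⟩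
      rw [this]
      positivity
  refine h2.trans ?_
  have hcard : (D.card : ℝ) ≤ 16 * (1 + L) ^ 4 := by
    have h4 : D.card ≤ (2 * L + 1) ^ 2 * (2 * L + 1) ^ 2 := by
      refine (card_filter_le _ _).trans ?_
      rw [card_product, card_box']
    have h5 : (D.card : ℝ) ≤ (2 * (L : ℝ) + 1) ^ 2 * (2 * L + 1) ^ 2 := by exact_mod_cast h4
    have hL0 : (0 : ℝ) ≤ L := Nat.cast_nonneg L
    have h6 : (2 * (L : ℝ) + 1) ^ 4 ≤ (2 * (1 + L)) ^ 4 := by
      gcongr
      linarith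
    calc (D.card : ℝ) ≤ (2 * (L : ℝ) + 1) ^ 4 := by rw [show (4 : ℕ) = 2 + 2 from rfl, pow_add]; exact h5
      _ ≤ (2 * (1 + L)) ^ 4 := h6
      _ = 16 * (1 + L) ^ 4 := by ring
  calc Mx⁻¹ * ∑ q ∈ D, Ex1 T.V (fun m => rt m q.1 q.2)
      ≤ Mx⁻¹ * (D.card * (2 * |C1| * (1 + L))) := by
        apply mul_le_mul_of_nonneg_left _ (by positivity)
        calc ∑ q ∈ D, Ex1 T.V (fun m => rt m q.1 q.2) ≤ ∑ _q ∈ D, 2 * |C1| * (1 + (L : ℝ)) :=
              sum_le_sum h3
          _ = _ := by rw [sum_const, nsmul_eq_mul]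
    _ ≤ Mx⁻¹ * (16 * (1 + L) ^ 4 * (2 * |C1| * (1 + L))) := by gcongr
    _ = (32 * |C1|) * (1 + L) ^ 5 / Mx := by rw [inv_mul_eq_div]; ring
    _ ≤ (32 * |C1| + 1) * (1 + L) ^ 5 / Mx := by
        gcongr
        linarith

end Vale.Agent.P155.T211
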