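import Mathlib

/-!
# P155, LEG: determinants of matrices with graded rank-one expansions

`abs_det_graded`: if the entries of an `ι × ι` matrix are `∑ l, u l j * v l i` with
`|u l j * v l i| ≤ M θ ^ deg l` and at most `Nk` indices `l` have degree `≤ k`, then
`|det| ≤ (card Λ) ^ n * n! * M ^ n * θ ^ ((k + 1) * (n - Nk))`, `n = card ι`.
-/

namespace Vale.Agent.P155.T211

open Finset Matrix

variable {ι : Type*} [Fintype ι] [DecidableEq ι]

/-- Determinant bound by row bounds. -/
theorem abs_det_le_rows (A : Matrix ι ι ℝ) (r : ι → ℝ) (h : ∀ j i, |A j i| ≤ r j) :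
    |A.det| ≤ (Fintype.card ι).factorial * ∏ j, r j := by
  rw [Matrix.det_apply']
  refine (Finset.abs_sum_le_sum_abs _ _).trans ?_
  have hb : ∀ σ : Equiv.Perm ι, |((Equiv.Perm.sign σ : ℤ) : ℝ) * ∏ i, A (σ i) i| ≤ ∏ j, r j := by
    intro σ
    rw [abs_mul]
    have h1 : |((Equiv.Perm.sign σ : ℤ) : ℝ)| = 1 := by
      rcases Int.units_eq_one_or (Equiv.Perm.sign σ) with h | h <;> rw [h] <;> simp
    rw [h1, one_mul, Finset.abs_prod]
    calc ∏ i, |A (σ i) i| ≤ ∏ i, r (σ i) :=
          Finset.prod_le_prod (fun i _ => abs_nonneg _) (fun i _ => h _ _)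
      _ = ∏ j, r j := Equiv.prod_comp σ r
  calc ∑ σ : Equiv.Perm ι, |((Equiv.Perm.sign σ : ℤ) : ℝ) * ∏ i, A (σ i) i|
      ≤ ∑ _σ : Equiv.Perm ι, ∏ j, r j := Finset.sum_le_sum fun σ _ => hb σ
    _ = (Fintype.card ι).factorial * ∏ j, r j := by
        rw [Finset.sum_const, Finset.card_univ, Fintype.card_perm, nsmul_eq_mul]

/-- Multilinear expansion of the rows. -/
theorem det_sum_rows {Λ : Type*} [Fintype Λ] [DecidableEq Λ] (g : ι → Λ → ι → ℝ) :
    Matrix.det (Matrix.of fun j i => ∑ l, g j l i)
      = ∑ c : ι → Λ, Matrix.det (Matrix.of fun j i => g j (c j) i) := by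
  have h := MultilinearMap.map_sum (f := (Matrix.detRowAlternating (R := ℝ) (n := ι)).toMultilinearMap)
    (g := g)
  have e1 : (Matrix.of fun j i => ∑ l, g j l i) = (fun j => ∑ l, g j l) := by
    funext j i
    rw [Finset.sum_apply]
    rfl
  rw [e1]
  exact h

/-- **Graded determinant bound.** -/
theorem abs_det_graded {Λ : Type*} [Fintype Λ] [DecidableEq Λ] (deg : Λ → ℕ) (k Nk : ℕ)
    (hN : (univ.filter (fun l => deg l ≤ k)).card ≤ Nk)
    (u v : Λ → ι → ℝ) (M θ : ℝ) (hM : 0 ≤ M) (hθ0 : 0 ≤ θ) (hθ : θ ≤ 1)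
    (huv : ∀ l j i, |u l j * v l i| ≤ M * θ ^ deg l)
    (X : Matrix ι ι ℝ) (hX : ∀ j i, X j i = ∑ l, u l j * v l i) :
    |X.det| ≤ (Fintype.card Λ : ℝ) ^ Fintype.card ι * (Fintype.card ι).factorial
      * M ^ Fintype.card ι * θ ^ ((k + 1) * (Fintype.card ι - Nk)) := by
  set n := Fintype.card ι with hn
  have hXe : X = Matrix.of fun j i => ∑ l, u l j * v l i := by
    ext j i; exact hX j i
  rw [hXe, det_sum_rows (fun j l i => u l j * v l i)]
  refine (Finset.abs_sum_le_sum_abs _ _).trans ?_
  have hb : ∀ c : ι → Λ, |Matrix.det (Matrix.of fun j i => u (c j) j * v (c j) i)|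
      ≤ n.factorial * M ^ n * θ ^ ((k + 1) * (n - Nk)) := by
    intro c
    by_cases hc : Function.Injective c
    · have h1 := abs_det_le_rows (Matrix.of fun j i => u (c j) j * v (c j) i)
        (fun j => M * θ ^ deg (c j)) (fun j i => huv (c j) j i)
      refine h1.trans ?_
      rw [Finset.prod_mul_distrib, Finset.prod_const, Finset.card_univ, ← hn,
        Finset.prod_pow_eq_pow_sum, mul_assoc]
      have hsum : (k + 1) * (n - Nk) ≤ ∑ j, deg (c j) := by
        have hcard : (univ.filter (fun j => deg (c j) ≤ k)).card ≤ Nk := by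
          refine le_trans ?_ hN
          apply Finset.card_le_card_of_injOn c
          · intro j hj
            exact Finset.mem_coe.2 (Finset.mem_filter.2 ⟨mem_univ _, (Finset.mem_filter.1
              (Finset.mem_coe.1 hj)).2⟩)
          · exact hc.injOn
        have hcard2 : n - Nk ≤ (univ.filter (fun j => ¬ deg (c j) ≤ k)).card := by
          have := Finset.card_filter_add_card_filter_not (s := (univ : Finset ι))
            (fun j => deg (c j) ≤ k)
          rw [Finset.card_univ, ← hn] at this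
          omega
        calc (k + 1) * (n - Nk) ≤ (k + 1) * (univ.filter (fun j => ¬ deg (c j) ≤ k)).card :=
              Nat.mul_le_mul_left _ hcard2
          _ = ∑ j ∈ univ.filter (fun j => ¬ deg (c j) ≤ k), (k + 1) := by
              rw [Finset.sum_const, smul_eq_mul, mul_comm]
          _ ≤ ∑ j ∈ univ.filter (fun j => ¬ deg (c j) ≤ k), deg (c j) := by
              refine Finset.sum_le_sum fun j hj => ?_
              have := (Finset.mem_filter.1 hj).2
              omega
          _ ≤ ∑ j, deg (c j) :=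
              Finset.sum_le_sum_of_subset (Finset.filter_subset _ _)
      have hpow : θ ^ (∑ j, deg (c j)) ≤ θ ^ ((k + 1) * (n - Nk)) :=
        pow_le_pow_of_le_one hθ0 hθ hsum
      gcongr
    · have hne : ∃ j j', j ≠ j' ∧ c j = c j' := by
        simp only [Function.Injective, not_forall] at hc
        obtain ⟨j, j', h1, h2⟩ := hc
        exact ⟨j, j', h2, h1⟩
      obtain ⟨j, j', hjj, hcj⟩ := hne
      have h0 : Matrix.det (Matrix.of fun j i => u (c j) j * v (c j) i) = 0 := by
        have h1 := Matrix.det_mul_column (fun j => u (c j) j) (Matrix.of fun j i => v (c j) i)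
        have h2 : Matrix.det (Matrix.of fun j i => v (c j) i) = 0 := by
          apply Matrix.det_zero_of_row_eq hjj
          funext i
          simp [hcj]
        rw [h2, mul_zero] at h1
        exact h1
      rw [h0, abs_zero]
      positivity
  calc ∑ c : ι → Λ, |Matrix.det (Matrix.of fun j i => u (c j) j * v (c j) i)|
      ≤ ∑ _c : ι → Λ, (n.factorial * M ^ n * θ ^ ((k + 1) * (n - Nk)) : ℝ) :=
        Finset.sum_le_sum fun c _ => hb c
    _ = (Fintype.card Λ : ℝ) ^ n * n.factorial * M ^ n * θ ^ ((k + 1) * (n - Nk)) := by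
        rw [Finset.sum_const, Finset.card_univ, Fintype.card_fun, nsmul_eq_mul]
        push_cast
        ring

end Vale.Agent.P155.T211
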