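import Vale.Agent.P155.G.Diff
import Vale.Agent.P155.G.Newton
import Vale.Agent.P155.T211.Minor

/-!
# P155, LEG: minors of families of discrete harmonic functions

`minor_harm`: the determinant of `(G j (τ i) (z i))`, where all points `z i` lie in a box of radius
`s` and the functions `G j τ` are bounded by `M` and discrete harmonic in the concentric box of
radius `ρ`, is at most `(2 J² + n)ⁿ n! (3 M)ⁿ (64 J s / ρ)^{J (n - 2 J²)}`.
-/

namespace Vale.Agent.P155.T211

open Finset Matrix G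

lemma Dx_iter_slice (a : ℕ) (f : Pt → ℝ) (x y : ℤ) :
    (Dx^[a] f) (x, y) = (fd^[a] (fun t => f (t, y))) x := by
  induction a generalizing x with
  | zero => rfl
  | succ a ih =>
    rw [Function.iterate_succ_apply', Function.iterate_succ_apply', Dx, fd, ih, ih]

lemma Dy_iter_slice (b : ℕ) (f : Pt → ℝ) (x y : ℤ) :
    (Dy^[b] f) (x, y) = (fd^[b] (fun t => f (x, t))) y := by
  induction b generalizing y with
  | zero => rfl
  | succ a ih =>
    rw [Function.iterate_succ_apply', Function.iterate_succ_apply', Dy, fd, ih, ih]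

/-- Two variable Newton expansion with remainder. -/
lemma newton_two (J L : ℕ) (ρ K : ℝ) (hρ : 0 ≤ ρ) (hK : 0 ≤ K) (hL : L * ρ ≤ 1 / 2)
    (f : Pt → ℝ) (x0 : Pt)
    (hB : ∀ a b : ℕ, a ≤ J → b ≤ J → ∀ i j : ℕ, i ≤ L → j ≤ L →
      |(Dx^[a] (Dy^[b] f)) (x0.1 + i, x0.2 + j)| ≤ K * ρ ^ (a + b))
    (k l : ℕ) (hk : k ≤ L) (hl : l ≤ L) :
    |f (x0.1 + k, x0.2 + l) - ∑ a ∈ range J, ∑ b ∈ range J,
      ((k.choose a : ℝ) * (l.choose b : ℝ)) * (Dx^[a] (Dy^[b] f)) x0| ≤ 3 * K * (L * ρ) ^ J := by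
  have hch : ∀ m ≤ L, ∀ j : ℕ, (m.choose j : ℝ) ≤ (L : ℝ) ^ j := by
    intro m hm j
    calc (m.choose j : ℝ) ≤ (m : ℝ) ^ j := by exact_mod_cast Nat.choose_le_pow m j
      _ ≤ (L : ℝ) ^ j := by gcongr
  -- first variable
  have h1 : |f (x0.1 + k, x0.2 + l) - ∑ a ∈ range J, (k.choose a : ℝ) *
      (Dx^[a] f) (x0.1, x0.2 + l)| ≤ K * (L * ρ) ^ J := by
    have := newton_base (fun t => f (t, x0.2 + l)) x0.1 k J (K * ρ ^ J) (by
      intro i hi
      rw [← Dx_iter_slice]
      have := hB J 0 le_rfl (Nat.zero_le _) i l (by omega) hl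
      simpa using this)
    simp only [← Dx_iter_slice] at this
    refine this.trans ?_
    calc (k.choose J : ℝ) * (K * ρ ^ J) ≤ (L : ℝ) ^ J * (K * ρ ^ J) := by
          gcongr; exact hch k hk J
      _ = _ := by rw [mul_pow]; ring
  -- second variable, for each a
  have h2 : ∀ a ∈ range J, |(Dx^[a] f) (x0.1, x0.2 + l) - ∑ b ∈ range J, (l.choose b : ℝ) *
      (Dx^[a] (Dy^[b] f)) x0| ≤ K * ρ ^ a * (L * ρ) ^ J := by
    intro a ha
    have haJ := Finset.mem_range.1 ha
    have := newton_base (fun t => (Dx^[a] f) (x0.1, t)) x0.2 l J (K * ρ ^ (a + J)) (by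
      intro i hi
      rw [← Dy_iter_slice, ← Dx_iter_Dy_iter]
      have := hB a J haJ.le le_rfl 0 i (Nat.zero_le _) (by omega)
      simpa using this)
    simp only [← Dy_iter_slice, ← Dx_iter_Dy_iter] at this
    refine this.trans ?_
    calc (l.choose J : ℝ) * (K * ρ ^ (a + J)) ≤ (L : ℝ) ^ J * (K * ρ ^ (a + J)) := by
          gcongr; exact hch l hl J
      _ = _ := by rw [mul_pow, pow_add]; ring
  have hgeo : ∑ a ∈ range J, ((L : ℝ) * ρ) ^ a ≤ 2 := by
    calc ∑ j ∈ range J, ((L : ℝ) * ρ) ^ j ≤ ∑ j ∈ range J, (1 / 2 : ℝ) ^ j :=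
          Finset.sum_le_sum fun j _ => by gcongr
      _ ≤ 2 := by
          have := Summable.sum_le_tsum (range J) (fun i _ => by positivity)
            (summable_geometric_two)
          rwa [tsum_geometric_two] at this
  have h3 : |∑ a ∈ range J, (k.choose a : ℝ) * (Dx^[a] f) (x0.1, x0.2 + l)
      - ∑ a ∈ range J, ∑ b ∈ range J,
      ((k.choose a : ℝ) * (l.choose b : ℝ)) * (Dx^[a] (Dy^[b] f)) x0| ≤ 2 * K * (L * ρ) ^ J := by
    rw [← Finset.sum_sub_distrib]
    refine (Finset.abs_sum_le_sum_abs _ _).trans ?_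
    calc ∑ a ∈ range J, |(k.choose a : ℝ) * (Dx^[a] f) (x0.1, x0.2 + l)
          - ∑ b ∈ range J, ((k.choose a : ℝ) * (l.choose b : ℝ)) * (Dx^[a] (Dy^[b] f)) x0|
        ≤ ∑ a ∈ range J, ((L : ℝ) * ρ) ^ a * (K * (L * ρ) ^ J) := by
          refine Finset.sum_le_sum fun a ha => ?_
          have e : (k.choose a : ℝ) * (Dx^[a] f) (x0.1, x0.2 + l)
              - ∑ b ∈ range J, ((k.choose a : ℝ) * (l.choose b : ℝ)) * (Dx^[a] (Dy^[b] f)) x0
              = (k.choose a : ℝ) * ((Dx^[a] f) (x0.1, x0.2 + l) - ∑ b ∈ range J,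
                (l.choose b : ℝ) * (Dx^[a] (Dy^[b] f)) x0) := by
            rw [mul_sub, Finset.mul_sum]
            congr 1
            exact Finset.sum_congr rfl fun b _ => by ring
          rw [e, abs_mul, Nat.abs_cast]
          calc (k.choose a : ℝ) * |(Dx^[a] f) (x0.1, x0.2 + l) - ∑ b ∈ range J,
                (l.choose b : ℝ) * (Dx^[a] (Dy^[b] f)) x0|
              ≤ (L : ℝ) ^ a * (K * ρ ^ a * (L * ρ) ^ J) := by
                gcongr
                · exact hch k hk a
                · exact h2 a ha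
            _ = _ := by rw [mul_pow _ _ a]; ring
      _ = (∑ a ∈ range J, ((L : ℝ) * ρ) ^ a) * (K * (L * ρ) ^ J) := by rw [Finset.sum_mul]
      _ ≤ 2 * (K * (L * ρ) ^ J) := by gcongr
      _ = _ := by ring
  have := abs_sub_le (f (x0.1 + k, x0.2 + l)) (∑ a ∈ range J, (k.choose a : ℝ) *
      (Dx^[a] f) (x0.1, x0.2 + l)) (∑ a ∈ range J, ∑ b ∈ range J,
      ((k.choose a : ℝ) * (l.choose b : ℝ)) * (Dx^[a] (Dy^[b] f)) x0)
  linarith

variable {ι : Type*} [Fintype ι] [DecidableEq ι]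

/-- **Minors of harmonic functions.** -/
theorem minor_harm (J s ρ : ℕ) (hJ : 1 ≤ J) (hs : 1 ≤ s) (hρ : 128 * J * s ≤ ρ) (x : Pt) (M : ℝ)
    (τ : ι → Bool) (z : ι → Pt) (hz : ∀ i, dinf x (z i) ≤ s) (g : ι → Bool → Pt → ℝ)
    (hM : ∀ j t y, dinf x y ≤ ρ → |g j t y| ≤ M)
    (hh : ∀ j t y, dinf x y < ρ → lap (g j t) y = 0) :
    |Matrix.det (Matrix.of fun j i => g j (τ i) (z i))| ≤
      ((2 * J ^ 2 + Fintype.card ι : ℕ) : ℝ) ^ Fintype.card ι * (Fintype.card ι).factorial
      * (3 * M) ^ Fintype.card ι * (64 * J * s / ρ) ^ (J * (Fintype.card ι - 2 * J ^ 2)) := by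
  classical
  rcases isEmpty_or_nonempty ι with hι | ⟨⟨j0⟩⟩
  · have hc : Fintype.card ι = 0 := Fintype.card_eq_zero
    rw [hc]
    simp [Matrix.det_isEmpty]
  have hM0 : 0 ≤ M := le_trans (abs_nonneg _) (hM j0 true x (by rw [dinf_self]; positivity))
  have hJ0 : (1 : ℝ) ≤ J := by exact_mod_cast hJ
  have hs0 : (1 : ℝ) ≤ s := by exact_mod_cast hs
  have hρN : 0 < ρ := by nlinarith
  have hρ0 : (0 : ℝ) < ρ := by exact_mod_cast hρN
  have hρ' : (128 : ℝ) * J * s ≤ ρ := by exact_mod_cast hρ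
  set r : ℝ := 16 * (2 * J) * (ρ : ℝ)⁻¹ with hr
  have hr0 : 0 ≤ r := by positivity
  set L := 2 * s with hL
  have hLr : (L : ℝ) * r = 64 * J * s / ρ := by
    rw [hr, hL]; push_cast; rw [div_eq_mul_inv]; ring
  have hLr2 : (L : ℝ) * r ≤ 1 / 2 := by
    rw [hLr, div_le_iff₀ hρ0]; linarith
  have hLr0 : 0 ≤ (L : ℝ) * r := by positivity
  set x0 : Pt := (x.1 - s, x.2 - s) with hx0
  -- difference bounds
  have hdiff : ∀ (j : ι) (t : Bool) (a b : ℕ), a ≤ J → b ≤ J → ∀ y, dinf x y ≤ s →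
      |(Dx^[a] (Dy^[b] (g j t))) y| ≤ M * r ^ (a + b) := by
    intro j t a b ha hb y hy
    have h4 : 2 * (2 * J) ≤ ρ := by nlinarith
    have := diff_harm_le (2 * J) ρ (by omega) h4 (g j t) x M (hM j t) (hh j t) a b (by omega) y (by
      have : 2 * s ≤ ρ := by nlinarith
      have : (2 : ℤ) * s ≤ ρ := by exact_mod_cast this
      linarith)
    refine this.trans (le_of_eq ?_)
    rw [hr, mul_pow (16 * (2 * (J : ℝ)))]
    push_cast
    ring
  -- coordinates
  have hco : ∀ i, ∃ k l : ℕ, k ≤ L ∧ l ≤ L ∧ z i = (x0.1 + k, x0.2 + l) := by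
    intro i
    have h := dinf_le_iff.1 (hz i)
    have h1 := abs_le.1 h.1
    have h2 := abs_le.1 h.2
    refine ⟨((z i).1 - x.1 + s).toNat, ((z i).2 - x.2 + s).toNat, by omega, by omega, ?_⟩
    rw [hx0]
    ext
    · simp only; omega
    · simp only; omega
  choose kk ll hkk hll hzz using hco
  -- the index set
  let Λ := (Bool × Fin J × Fin J) ⊕ ι
  let deg : Λ → ℕ := Sum.elim (fun p => (p.2.1 : ℕ) + p.2.2) (fun _ => J)
  let co : ι → Bool × Fin J × Fin J → ℝ := fun i p =>
    if p.1 = τ i then ((kk i).choose p.2.1 : ℝ) * ((ll i).choose p.2.2 : ℝ) else 0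
  let rem : ι → ι → ℝ := fun j i => g j (τ i) (z i) - ∑ a ∈ range J, ∑ b ∈ range J,
      (((kk i).choose a : ℝ) * ((ll i).choose b : ℝ)) * (Dx^[a] (Dy^[b] (g j (τ i)))) x0
  let u : Λ → ι → ℝ := fun l j => Sum.elim (fun p : Bool × Fin J × Fin J =>
    (Dx^[(p.2.1 : ℕ)] (Dy^[(p.2.2 : ℕ)] (g j p.1))) x0) (fun i0 => rem j i0) l
  let v : Λ → ι → ℝ := fun l i => Sum.elim (fun p => co i p) (fun i0 => if i = i0 then 1 else 0) l
  have hbox : ∀ i j : ℕ, i ≤ L → j ≤ L → dinf x (x0.1 + i, x0.2 + j) ≤ s := by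
    intro i j hi hj
    rw [dinf_le_iff, abs_le, abs_le, hx0]
    simp only
    omega
  have hrem : ∀ j i, |rem j i| ≤ 3 * M * (L * r) ^ J := by
    intro j i
    have := newton_two J L r M hr0 hM0 hLr2 (g j (τ i)) x0 (by
      intro a b ha hb p q hp hq
      exact hdiff j (τ i) a b ha hb _ (hbox p q hp hq)) (kk i) (ll i) (hkk i) (hll i)
    rw [← hzz i] at this
    exact this
  have hdet := abs_det_graded (ι := ι) (Λ := Λ) deg (J - 1) (2 * J ^ 2) (by
      have : (univ.filter (fun l : Λ => deg l ≤ J - 1)) ⊆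
          (univ : Finset (Bool × Fin J × Fin J)).map Function.Embedding.inl := by
        intro l hl
        rcases l with p | i
        · exact Finset.mem_map.2 ⟨p, mem_univ _, rfl⟩
        · have := (Finset.mem_filter.1 hl).2
          simp only [deg, Sum.elim_inr] at this
          omega
      refine (Finset.card_le_card this).trans ?_
      rw [Finset.card_map, Finset.card_univ]
      simp [Fintype.card_prod]
      nlinarith)
    u v (3 * M) (L * r) (by positivity) hLr0 (by linarith) (by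
      intro l j i
      rcases l with p | i0
      · simp only [u, v, deg, co, Sum.elim_inl]
        have h1 := hdiff j p.1 p.2.1 p.2.2 p.2.1.2.le p.2.2.2.le x0 (by
          have := hbox 0 0 (Nat.zero_le _) (Nat.zero_le _)
          simpa using this)
        split_ifs with h
        · rw [abs_mul, abs_mul, Nat.abs_cast, Nat.abs_cast]
          have hch : ∀ m ≤ L, ∀ j : ℕ, (m.choose j : ℝ) ≤ (L : ℝ) ^ j := by
            intro m hm j
            calc (m.choose j : ℝ) ≤ (m : ℝ) ^ j := by exact_mod_cast Nat.choose_le_pow m j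
              _ ≤ (L : ℝ) ^ j := by gcongr
          calc |(Dx^[(p.2.1 : ℕ)] (Dy^[(p.2.2 : ℕ)] (g j p.1))) x0| *
                (((kk i).choose p.2.1 : ℝ) * ((ll i).choose p.2.2 : ℝ))
              ≤ (M * r ^ ((p.2.1 : ℕ) + p.2.2)) * ((L : ℝ) ^ (p.2.1 : ℕ) * (L : ℝ) ^ (p.2.2 : ℕ)) := by
                gcongr
                · exact hch _ (hkk i) _
                · exact hch _ (hll i) _
            _ = M * (L * r) ^ ((p.2.1 : ℕ) + p.2.2) := by
                rw [mul_pow (L : ℝ) r, pow_add (L : ℝ)]; ring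
            _ ≤ 3 * M * (L * r) ^ ((p.2.1 : ℕ) + p.2.2) := by
                gcongr
                linarith
        · rw [mul_zero, abs_zero]
          positivity
      · simp only [u, v, deg, Sum.elim_inr]
        split_ifs with h
        · rw [mul_one]
          exact hrem j i0
        · rw [mul_zero, abs_zero]
          positivity)
    (Matrix.of fun j i => g j (τ i) (z i)) (by
      intro j i
      rw [Matrix.of_apply, Fintype.sum_sum_type]
      have e1 : ∑ p : Bool × Fin J × Fin J, u (Sum.inl p) j * v (Sum.inl p) i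
          = ∑ a ∈ range J, ∑ b ∈ range J,
      (((kk i).choose a : ℝ) * ((ll i).choose b : ℝ)) * (Dx^[a] (Dy^[b] (g j (τ i)))) x0 := by
        simp only [u, v, co, Sum.elim_inl]
        rw [Fintype.sum_prod_type]
        rw [Finset.sum_eq_single (τ i)]
        · rw [Fintype.sum_prod_type]
          simp only [if_true]
          rw [← Fin.sum_univ_eq_sum_range (fun a => ∑ b ∈ range J,
            (((kk i).choose a : ℝ) * ((ll i).choose b : ℝ)) *
              (Dx^[a] (Dy^[b] (g j (τ i)))) x0)]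
          refine Finset.sum_congr rfl fun a _ => ?_
          rw [← Fin.sum_univ_eq_sum_range (fun b =>
            (((kk i).choose a : ℝ) * ((ll i).choose b : ℝ)) *
              (Dx^[(a : ℕ)] (Dy^[b] (g j (τ i)))) x0)]
          exact Finset.sum_congr rfl fun b _ => by ring
        · intro t _ ht
          refine Finset.sum_eq_zero fun p _ => ?_
          rw [if_neg ht, mul_zero]
        · simp
      have e2 : ∑ i0 : ι, u (Sum.inr i0) j * v (Sum.inr i0) i = rem j i := by
        simp only [u, v, Sum.elim_inr, mul_ite, mul_one, mul_zero]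
        rw [Finset.sum_ite_eq]
        simp
      rw [e1, e2]
      simp only [rem]
      ring)
  rw [hLr] at hdet
  have hJ1 : J - 1 + 1 = J := by omega
  rw [hJ1] at hdet
  have hcard : Fintype.card Λ = 2 * J ^ 2 + Fintype.card ι := by
    simp only [Λ, Fintype.card_sum, Fintype.card_prod, Fintype.card_bool, Fintype.card_fin]
    ring
  rw [hcard] at hdet
  exact hdet

end Vale.Agent.P155.T211
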