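import Vale.Agent.P155.T211.Graded
import Vale.Agent.P155.H801.Good

/-!
# P155, LEG: minors of harmonic functions with exceptional columns, fine lattice version
-/

namespace Vale.Agent.P155.T211

open Finset Matrix G

variable {ι : Type*} [Fintype ι] [DecidableEq ι]

/-- **Minors of harmonic functions, with exceptional columns.** -/
theorem minor_harm_ex (J s ρ : ℕ) (hJ : 1 ≤ J) (hs : 1 ≤ s) (hρ : 128 * J * s ≤ ρ) (x : Pt) (M : ℝ)
    (τ : ι → Bool) (z : ι → Pt) (E : Finset ι) (hz : ∀ i ∉ E, dinf x (z i) ≤ s)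
    (g : ι → Bool → Pt → ℝ) (hM : ∀ j t y, dinf x y ≤ ρ → |g j t y| ≤ M)
    (hh : ∀ j t y, dinf x y < ρ → lap (g j t) y = 0) (X : Matrix ι ι ℝ)
    (hX : ∀ j, ∀ i ∉ E, X j i = g j (τ i) (z i)) (hXE : ∀ j, ∀ i ∈ E, |X j i| ≤ M) :
    |X.det| ≤
      ((2 * J ^ 2 + Fintype.card ι : ℕ) : ℝ) ^ Fintype.card ι * (Fintype.card ι).factorial
      * (3 * M) ^ Fintype.card ι *
        (64 * J * s / ρ) ^ (J * (Fintype.card ι - (2 * J ^ 2 + E.card))) := by
  classical
  rcases isEmpty_or_nonempty ι with hι | ⟨⟨j0⟩⟩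
  · have hc : Fintype.card ι = 0 := Fintype.card_eq_zero
    rw [hc]
    simp [Matrix.det_isEmpty]
  have hM0 : 0 ≤ M := le_trans (abs_nonneg _) (hM j0 true x (by rw [dinf_self]; positivity))
  have hJ0 : (1 : ℝ) ≤ J := by exact_mod_cast hJ
  have hs0 : (1 : ℝ) ≤ s := by exact_mod_cast hs
  have hρN : 0 < ρ := by nlinarith
  have hρ0 : (0 : ℝ) < ρ := by exact_mod_cast hρN
  have hρ' : (128 : ℝ) * J * s ≤ ρ := by exact_mod_cast hρ
  set r : ℝ := 16 * (2 * J) * (ρ : ℝ)⁻¹ with hr
  have hr0 : 0 ≤ r := by positivity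
  set L := 2 * s with hL
  have hLr : (L : ℝ) * r = 64 * J * s / ρ := by
    rw [hr, hL]; push_cast; rw [div_eq_mul_inv]; ring
  have hLr2 : (L : ℝ) * r ≤ 1 / 2 := by
    rw [hLr, div_le_iff₀ hρ0]; linarith
  have hLr0 : 0 ≤ (L : ℝ) * r := by positivity
  set x0 : Pt := (x.1 - s, x.2 - s) with hx0
  -- difference bounds
  have hdiff : ∀ (j : ι) (t : Bool) (a b : ℕ), a ≤ J → b ≤ J → ∀ y, dinf x y ≤ s →
      |(Dx^[a] (Dy^[b] (g j t))) y| ≤ M * r ^ (a + b) := by
    intro j t a b ha hb y hy
    have h4 : 2 * (2 * J) ≤ ρ := by nlinarith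
    have := diff_harm_le (2 * J) ρ (by omega) h4 (g j t) x M (hM j t) (hh j t) a b (by omega) y (by
      have : 2 * s ≤ ρ := by nlinarith
      have : (2 : ℤ) * s ≤ ρ := by exact_mod_cast this
      linarith)
    refine this.trans (le_of_eq ?_)
    rw [hr, mul_pow (16 * (2 * (J : ℝ)))]
    push_cast
    ring
  -- coordinates
  have hco : ∀ i, ∃ k l : ℕ, k ≤ L ∧ l ≤ L ∧ (i ∉ E → z i = (x0.1 + k, x0.2 + l)) := by
    intro i
    by_cases hiE : i ∈ E
    · exact ⟨0, 0, Nat.zero_le _, Nat.zero_le _, fun h => absurd hiE h⟩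
    have h := dinf_le_iff.1 (hz i hiE)
    have h1 := abs_le.1 h.1
    have h2 := abs_le.1 h.2
    refine ⟨((z i).1 - x.1 + s).toNat, ((z i).2 - x.2 + s).toNat, by omega, by omega, fun _ => ?_⟩
    rw [hx0]
    ext
    · simp only; omega
    · simp only; omega
  choose kk ll hkk hll hzz using hco
  -- the index set
  let Λ := (Bool × Fin J × Fin J) ⊕ ι
  let deg : Λ → ℕ := Sum.elim (fun p => (p.2.1 : ℕ) + p.2.2) (fun i0 => if i0 ∈ E then 0 else J)
  let co : ι → Bool × Fin J × Fin J → ℝ := fun i p =>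
    if p.1 = τ i then (if i ∈ E then 0 else ((kk i).choose p.2.1 : ℝ) * ((ll i).choose p.2.2 : ℝ))
    else 0
  let rem : ι → ι → ℝ := fun j i => if i ∈ E then X j i else
      g j (τ i) (z i) - ∑ a ∈ range J, ∑ b ∈ range J,
      (((kk i).choose a : ℝ) * ((ll i).choose b : ℝ)) * (Dx^[a] (Dy^[b] (g j (τ i)))) x0
  let u : Λ → ι → ℝ := fun l j => Sum.elim (fun p : Bool × Fin J × Fin J =>
    (Dx^[(p.2.1 : ℕ)] (Dy^[(p.2.2 : ℕ)] (g j p.1))) x0) (fun i0 => rem j i0) l
  let v : Λ → ι → ℝ := fun l i => Sum.elim (fun p => co i p) (fun i0 => if i = i0 then 1 else 0) l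
  have hbox : ∀ i j : ℕ, i ≤ L → j ≤ L → dinf x (x0.1 + i, x0.2 + j) ≤ s := by
    intro i j hi hj
    rw [dinf_le_iff, abs_le, abs_le, hx0]
    simp only
    omega
  have hrem : ∀ j, ∀ i ∉ E, |rem j i| ≤ 3 * M * (L * r) ^ J := by
    intro j i hiE
    have := newton_two J L r M hr0 hM0 hLr2 (g j (τ i)) x0 (by
      intro a b ha hb p q hp hq
      exact hdiff j (τ i) a b ha hb _ (hbox p q hp hq)) (kk i) (ll i) (hkk i) (hll i)
    rw [← hzz i hiE] at this
    simp only [rem, hiE, if_false]
    exact this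
  have hdet := abs_det_graded (ι := ι) (Λ := Λ) deg (J - 1) (2 * J ^ 2 + E.card) (by
      have : (univ.filter (fun l : Λ => deg l ≤ J - 1)) ⊆
          (univ : Finset (Bool × Fin J × Fin J)).disjSum E := by
        intro l hl
        rcases l with p | i
        · exact Finset.inl_mem_disjSum.2 (mem_univ _)
        · have := (Finset.mem_filter.1 hl).2
          simp only [deg, Sum.elim_inr] at this
          by_cases hiE : i ∈ E
          · exact Finset.inr_mem_disjSum.2 hiE
          · rw [if_neg hiE] at this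
            omega
      refine (Finset.card_le_card this).trans ?_
      rw [Finset.card_disjSum, Finset.card_univ]
      simp only [Fintype.card_prod, Fintype.card_bool, Fintype.card_fin]
      nlinarith)
    u v (3 * M) (L * r) (by positivity) hLr0 (by linarith) (by
      intro l j i
      rcases l with p | i0
      · simp only [u, v, deg, co, Sum.elim_inl]
        have h1 := hdiff j p.1 p.2.1 p.2.2 p.2.1.2.le p.2.2.2.le x0 (by
          have := hbox 0 0 (Nat.zero_le _) (Nat.zero_le _)
          simpa using this)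
        split_ifs with h hiE
        · rw [mul_zero, abs_zero]
          positivity
        · rw [abs_mul, abs_mul, Nat.abs_cast, Nat.abs_cast]
          have hch : ∀ m ≤ L, ∀ j : ℕ, (m.choose j : ℝ) ≤ (L : ℝ) ^ j := by
            intro m hm j
            calc (m.choose j : ℝ) ≤ (m : ℝ) ^ j := by exact_mod_cast Nat.choose_le_pow m j
              _ ≤ (L : ℝ) ^ j := by gcongr
          calc |(Dx^[(p.2.1 : ℕ)] (Dy^[(p.2.2 : ℕ)] (g j p.1))) x0| *
                (((kk i).choose p.2.1 : ℝ) * ((ll i).choose p.2.2 : ℝ))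
              ≤ (M * r ^ ((p.2.1 : ℕ) + p.2.2)) * ((L : ℝ) ^ (p.2.1 : ℕ) * (L : ℝ) ^ (p.2.2 : ℕ)) := by
                gcongr
                · exact hch _ (hkk i) _
                · exact hch _ (hll i) _
            _ = M * (L * r) ^ ((p.2.1 : ℕ) + p.2.2) := by
                rw [mul_pow (L : ℝ) r, pow_add (L : ℝ)]; ring
            _ ≤ 3 * M * (L * r) ^ ((p.2.1 : ℕ) + p.2.2) := by
                gcongr
                linarith
        · rw [mul_zero, abs_zero]
          positivity
      · simp only [u, v, deg, Sum.elim_inr]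
        by_cases h : i = i0
        · rw [if_pos h, mul_one]
          by_cases hiE : i0 ∈ E
          · simp only [rem, hiE, if_true, pow_zero, mul_one]
            have := hXE j i0 hiE
            linarith
          · rw [if_neg hiE]
            exact hrem j i0 hiE
        · rw [if_neg h, mul_zero, abs_zero]
          positivity)
    X (by
      intro j i
      rw [Fintype.sum_sum_type]
      have e2 : ∑ i0 : ι, u (Sum.inr i0) j * v (Sum.inr i0) i = rem j i := by
        simp only [u, v, Sum.elim_inr, mul_ite, mul_one, mul_zero]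
        rw [Finset.sum_ite_eq]
        simp
      by_cases hiE : i ∈ E
      · have e0 : ∑ p : Bool × Fin J × Fin J, u (Sum.inl p) j * v (Sum.inl p) i = 0 := by
          refine Finset.sum_eq_zero fun p _ => ?_
          simp only [u, v, co, Sum.elim_inl, hiE, if_true, ite_self, mul_zero]
        rw [e0, e2]
        simp only [rem, hiE, if_true, zero_add]
      have e1 : ∑ p : Bool × Fin J × Fin J, u (Sum.inl p) j * v (Sum.inl p) i
          = ∑ a ∈ range J, ∑ b ∈ range J,
      (((kk i).choose a : ℝ) * ((ll i).choose b : ℝ)) * (Dx^[a] (Dy^[b] (g j (τ i)))) x0 := by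
        simp only [u, v, co, Sum.elim_inl, hiE, if_false]
        rw [Fintype.sum_prod_type]
        rw [Finset.sum_eq_single (τ i)]
        · rw [Fintype.sum_prod_type]
          simp only [if_true]
          rw [← Fin.sum_univ_eq_sum_range (fun a => ∑ b ∈ range J,
            (((kk i).choose a : ℝ) * ((ll i).choose b : ℝ)) *
              (Dx^[a] (Dy^[b] (g j (τ i)))) x0)]
          refine Finset.sum_congr rfl fun a _ => ?_
          rw [← Fin.sum_univ_eq_sum_range (fun b =>
            (((kk i).choose a : ℝ) * ((ll i).choose b : ℝ)) *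
              (Dx^[(a : ℕ)] (Dy^[b] (g j (τ i)))) x0)]
          exact Finset.sum_congr rfl fun b _ => by ring
        · intro t _ ht
          refine Finset.sum_eq_zero fun p _ => ?_
          rw [if_neg ht, mul_zero]
        · simp
      rw [e1, e2]
      simp only [rem, hiE, if_false]
      rw [hX j i hiE]
      ring)
  rw [hLr] at hdet
  have hJ1 : J - 1 + 1 = J := by omega
  rw [hJ1] at hdet
  have hcard : Fintype.card Λ = 2 * J ^ 2 + Fintype.card ι := by
    simp only [Λ, Fintype.card_sum, Fintype.card_prod, Fintype.card_bool, Fintype.card_fin]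
    ring
  rw [hcard] at hdet
  exact hdet


/-- the white points of the two sublattices in coarse coordinates -/
def wp (t : Bool) (z : Pt) : Pt := if t then (2 * z.1 + 1, 2 * z.2) else (2 * z.1, 2 * z.2 + 1)

lemma white_wp (t : Bool) (z : Pt) : White (wp t z) := by
  cases t
  · exact ⟨z.1 + z.2, by simp only [wp]; simp; ring⟩
  · exact ⟨z.1 + z.2, by simp only [wp, if_true]; ring⟩

lemma exists_wp {a : Pt} (ha : White a) :
    wp (decide (Odd a.1)) (a.1 / 2, a.2 / 2) = a := by
  obtain ⟨k, hk⟩ := ha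
  unfold wp
  by_cases h : Odd a.1
  · simp only [h, decide_true, if_true]
    obtain ⟨l, hl⟩ := h
    ext
    · simp only; omega
    · simp only; omega
  · simp only [h, decide_false, Bool.false_eq_true, if_false]
    rw [Int.not_odd_iff_even] at h
    obtain ⟨l, hl⟩ := h
    ext
    · simp only; omega
    · simp only; omega

lemma dinf_wp {x z : Pt} {t : Bool} {n : ℤ} (h : dinf (x.1 / 2, x.2 / 2) z ≤ n) :
    dinf x (wp t z) ≤ 2 * n + 1 := by
  rw [dinf_le_iff, abs_le, abs_le] at h ⊢
  simp only at h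
  unfold wp
  cases t
  · simp only [Bool.false_eq_true, if_false]; omega
  · simp only [if_true]; omega

lemma dinf_coarse {x a : Pt} {n : ℤ} (hn : 0 ≤ n) (h : dinf x a ≤ n) :
    dinf (x.1 / 2, x.2 / 2) (a.1 / 2, a.2 / 2) ≤ n + 1 := by
  rw [dinf_le_iff, abs_le, abs_le] at h ⊢
  simp only
  omega

/-- **Minors of functions harmonic on the white sublattices.** -/
theorem minor_white (J s ρ r : ℕ) (hJ : 1 ≤ J) (hρ : 128 * J * (s + 1) ≤ ρ) (hr : 2 * ρ + 3 ≤ r)
    (x : Pt) (M : ℝ) (a : ι → Pt) (E : Finset ι)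
    (ha : ∀ i, i ∉ E → White (a i) ∧ dinf x (a i) ≤ s) (F : ι → Pt → ℝ)
    (hM : ∀ j v, White v → dinf x v ≤ r → |F j v| ≤ M)
    (hF : ∀ j b, Black b → dinf x b ≤ r → KTop (F j) b = 0)
    (X : Matrix ι ι ℝ) (hX : ∀ j, ∀ i ∉ E, X j i = F j (a i)) (hXE : ∀ j, ∀ i ∈ E, |X j i| ≤ M) :
    |X.det| ≤
      ((2 * J ^ 2 + Fintype.card ι : ℕ) : ℝ) ^ Fintype.card ι * (Fintype.card ι).factorial
      * (3 * M) ^ Fintype.card ι *
        (64 * J * (s + 1 : ℕ) / ρ) ^ (J * (Fintype.card ι - (2 * J ^ 2 + E.card))) := by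
  apply minor_harm_ex J (s + 1) ρ hJ (by omega) hρ (x.1 / 2, x.2 / 2) M
    (fun i => decide (Odd (a i).1)) (fun i => ((a i).1 / 2, (a i).2 / 2)) E ?_
    (fun j t z => F j (wp t z)) ?_ ?_ X ?_ hXE
  · intro i hi
    have := dinf_coarse (by positivity) (ha i hi).2
    push_cast
    exact this
  · intro j t y hy
    apply hM j _ (white_wp t y)
    have := dinf_wp (t := t) hy
    have h2 : (2 * ρ + 3 : ℤ) ≤ r := by exact_mod_cast hr
    linarith
  · intro j t y hy
    have hy' : dinf (x.1 / 2, x.2 / 2) y ≤ (ρ : ℤ) - 1 := by linarith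
    have h1 := dinf_wp (t := t) hy'
    have h2 : (2 * ρ + 3 : ℤ) ≤ r := by exact_mod_cast hr
    have h3 : dinf x (wp t y) ≤ (r : ℤ) - 1 := by linarith
    rw [dinf_le_iff] at h3
    have := H801.step_white (G := F j) (x := x) (w := wp t y) (L := r) (white_wp t y)
      h3.1 h3.2 (fun v hv hvb => hF j v hv (by
        rw [H801.mem_box_iff] at hvb
        rw [dinf_le_iff]
        exact hvb))
    unfold lap
    cases t
    · simp only [wp, Bool.false_eq_true, if_false] at this ⊢
      have e1 : 2 * (y.1 + 1) = 2 * y.1 + 2 := by ring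
      have e2 : 2 * (y.1 - 1) = 2 * y.1 - 2 := by ring
      have e3 : 2 * (y.2 + 1) + 1 = 2 * y.2 + 1 + 2 := by ring
      have e4 : 2 * (y.2 - 1) + 1 = 2 * y.2 + 1 - 2 := by ring
      rw [e1, e2, e3, e4]
      exact this
    · simp only [wp, if_true] at this ⊢
      have e1 : 2 * (y.1 + 1) + 1 = 2 * y.1 + 1 + 2 := by ring
      have e2 : 2 * (y.1 - 1) + 1 = 2 * y.1 + 1 - 2 := by ring
      have e3 : 2 * (y.2 + 1) = 2 * y.2 + 2 := by ring
      have e4 : 2 * (y.2 - 1) = 2 * y.2 - 2 := by ring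
      rw [e1, e2, e3, e4]
      exact this
  · intro j i hi
    rw [hX j i hi]
    show F j (a i) = F j (wp _ _)
    rw [exists_wp (ha i hi).1]

end Vale.Agent.P155.T211
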