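import Mathlib

/-!
# P155, LEG: Laplace expansion along a set of slot rows

`abs_det_rep_le`: the determinant of a matrix whose rows in `S` are `r i` and whose rows outside
`T ⊇ S` are unit rows is at most `|T| ^ |S| / |S|! * B * D`, where `B` bounds the minors
`det (r i (c i'))` and `D` the determinants with the rows in `S` replaced by unit rows.
-/

namespace Vale.Agent.P155.T211

open Finset Matrix

variable {N : Type*} [Fintype N] [DecidableEq N]

/-- rows in `S` replaced by `r` -/
def rep (A : Matrix N N ℝ) (S : Finset N) (r : N → N → ℝ) : Matrix N N ℝ :=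
  fun i => if i ∈ S then r i else A i

/-- rows in `S` replaced by unit rows at `c` -/
def un (A : Matrix N N ℝ) (S : Finset N) (c : N → N) : Matrix N N ℝ :=
  fun i => if i ∈ S then Pi.single (c i) 1 else A i

/-- the index functions: arbitrary on `S`, the identity off `S` -/
def fs (S : Finset N) : Finset (N → N) :=
  Fintype.piFinset fun i => if i ∈ S then univ else {i}

lemma mem_fs {S : Finset N} {c : N → N} : c ∈ fs S ↔ ∀ i, i ∉ S → c i = i := by
  unfold fs
  rw [Fintype.mem_piFinset]
  constructor
  · intro h i hi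
    have := h i
    rw [if_neg hi, mem_singleton] at this
    exact this
  · intro h i
    split_ifs with hi
    · exact mem_univ _
    · exact mem_singleton.2 (h i hi)

/-- Expansion of the slot rows in unit vectors. -/
theorem det_rep (A : Matrix N N ℝ) (S : Finset N) (r : N → N → ℝ) :
    (rep A S r).det = ∑ c ∈ fs S, (∏ j ∈ S, r j (c j)) * (un A S c).det := by
  have h := MultilinearMap.map_sum_finset
    (f := (Matrix.detRowAlternating (R := ℝ) (n := N)).toMultilinearMap)
    (fun j l => if j ∈ S then r j l • (Pi.single l 1 : N → ℝ) else A j)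
    (fun i => if i ∈ S then univ else {i})
  have e1 : (fun j => ∑ l ∈ (if j ∈ S then univ else {j}),
      if j ∈ S then r j l • (Pi.single l 1 : N → ℝ) else A j) = rep A S r := by
    funext j i
    by_cases hj : j ∈ S
    · simp only [rep, hj, if_true, Finset.sum_apply, Pi.smul_apply, smul_eq_mul]
      rw [Finset.sum_eq_single i]
      · simp
      · intro l _ hl
        rw [Pi.single_eq_of_ne (Ne.symm hl), mul_zero]
      · simp
    · simp [rep, hj]
  rw [e1] at h
  have e2 : ((Matrix.detRowAlternating (R := ℝ) (n := N)).toMultilinearMap) (rep A S r)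
      = (rep A S r).det := rfl
  rw [e2] at h
  rw [h]
  refine Finset.sum_congr rfl fun c _ => ?_
  have e3 : (∏ j ∈ S, r j (c j)) = ∏ j, (if j ∈ S then r j (c j) else 1) := by
    rw [← Finset.prod_filter]
    congr 1
    ext j; simp
  rw [e3, ← Matrix.det_mul_column]
  have e4 : (fun i => if i ∈ S then r i (c i) • (Pi.single (c i) 1 : N → ℝ) else A i)
      = Matrix.of fun i j => (if i ∈ S then r i (c i) else 1) * un A S c i j := by
    funext i j
    by_cases hi : i ∈ S
    · simp [hi, un]
    · simp [hi, un]
  rw [← e4]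
  rfl

/-- The minor of the slot rows. -/
def mi (S : Finset N) (r : N → N → ℝ) (c : N → N) : Matrix S S ℝ :=
  Matrix.of fun j j' => r j (c j')

omit [Fintype N] in
lemma ofSubtype_not_mem {S : Finset N} (π : Equiv.Perm S) {i : N} (hi : i ∉ S) :
    Equiv.Perm.ofSubtype π i = i :=
  Equiv.Perm.ofSubtype_apply_of_not_mem π hi

/-- **Symmetrised Laplace expansion.** -/
theorem det_rep_symm (A : Matrix N N ℝ) (S : Finset N) (r : N → N → ℝ) :
    (S.card.factorial : ℝ) * (rep A S r).det
      = ∑ c ∈ fs S, (mi S r c).det * (un A S c).det := by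
  have hshift : ∀ π : Equiv.Perm S, (rep A S r).det
      = ∑ c ∈ fs S, (∏ j ∈ S, r j (c (Equiv.Perm.ofSubtype π j))) *
        (un A S (c ∘ Equiv.Perm.ofSubtype π)).det := by
    intro π
    rw [det_rep]
    symm
    refine Finset.sum_bij' (fun c _ => c ∘ Equiv.Perm.ofSubtype π)
      (fun c _ => c ∘ Equiv.Perm.ofSubtype π⁻¹) ?_ ?_ ?_ ?_ ?_
    · intro c hc
      rw [mem_fs] at hc ⊢
      intro i hi
      simp only [Function.comp_apply, ofSubtype_not_mem π hi]
      exact hc i hi
    · intro c hc
      rw [mem_fs] at hc ⊢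
      intro i hi
      simp only [Function.comp_apply, ofSubtype_not_mem π⁻¹ hi]
      exact hc i hi
    · intro c _
      funext i
      simp
    · intro c _
      funext i
      simp
    · intro c _
      rfl
  have hdet : ∀ (π : Equiv.Perm S) (c : N → N),
      (un A S (c ∘ Equiv.Perm.ofSubtype π)).det = (Equiv.Perm.sign π : ℤ) * (un A S c).det := by
    intro π c
    have e : un A S (c ∘ Equiv.Perm.ofSubtype π)
        = (un A S c).submatrix (Equiv.Perm.ofSubtype π) id := by
      funext i j
      by_cases hi : i ∈ S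
      · have h1 : (Equiv.Perm.ofSubtype π i) ∈ S := by
          rw [Equiv.Perm.ofSubtype_apply_of_mem π hi]
          exact (π ⟨i, hi⟩).2
        simp [un, hi, h1]
      · simp [un, hi, ofSubtype_not_mem π hi]
    rw [e, Matrix.det_permute, Equiv.Perm.sign_ofSubtype]
  have hsum : ∑ _π : Equiv.Perm S, (rep A S r).det = (S.card.factorial : ℝ) * (rep A S r).det := by
    rw [Finset.sum_const, Finset.card_univ, Fintype.card_perm, Fintype.card_coe, nsmul_eq_mul]
  rw [← hsum, Finset.sum_congr rfl fun π _ => hshift π, Finset.sum_comm]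
  refine Finset.sum_congr rfl fun c _ => ?_
  rw [← Matrix.det_transpose (mi S r c), Matrix.det_apply', Finset.sum_mul]
  refine Finset.sum_congr rfl fun π _ => ?_
  rw [hdet, ← Finset.prod_coe_sort S]
  have : ∀ j : S, r j (c (Equiv.Perm.ofSubtype π j)) = (mi S r c)ᵀ (π j) j := by
    intro j
    rw [Equiv.Perm.ofSubtype_apply_coe]
    rfl
  rw [Finset.prod_congr rfl fun j _ => this j]
  ring

/-- **Laplace bound.** -/
theorem abs_det_rep_le (A : Matrix N N ℝ) (S T : Finset N)
    (hST : S ⊆ T) (r : N → N → ℝ) (hunit : ∀ i, i ∉ T → A i = Pi.single i 1) (B D : ℝ) (hB : 0 ≤ B)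
    (hmin : ∀ c : N → N, Set.InjOn c S → (∀ i ∈ S, c i ∈ T) → |(mi S r c).det| ≤ B)
    (hloc : ∀ c : N → N, Set.InjOn c S → (∀ i ∈ S, c i ∈ T) → |(un A S c).det| ≤ D) :
    |(rep A S r).det| ≤ (T.card : ℝ) ^ S.card * B * D := by
  classical
  have hD : 0 ≤ D := le_trans (abs_nonneg _) (hloc id (Function.injective_id.injOn) (fun i hi => hST hi))
  have hfac : (1 : ℝ) ≤ S.card.factorial := by exact_mod_cast Nat.one_le_iff_ne_zero.2 (Nat.factorial_ne_zero _)
  have h1 : |(rep A S r).det| ≤ (S.card.factorial : ℝ) * |(rep A S r).det| := by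
    have := abs_nonneg (rep A S r).det
    nlinarith
  refine h1.trans ?_
  have h2 : (S.card.factorial : ℝ) * |(rep A S r).det| = |(S.card.factorial : ℝ) * (rep A S r).det| := by
    rw [abs_mul, Nat.abs_cast]
  rw [h2, det_rep_symm]
  refine (Finset.abs_sum_le_sum_abs _ _).trans ?_
  -- only the functions into `T` contribute
  set F : Finset (N → N) := Fintype.piFinset fun i => if i ∈ S then T else {i} with hF
  have hFs : F ⊆ fs S := by
    intro c hc
    rw [mem_fs]
    intro i hi
    have := Fintype.mem_piFinset.1 hc i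
    rw [if_neg hi, mem_singleton] at this
    exact this
  have hzero : ∀ c ∈ fs S, c ∉ F → |(mi S r c).det * (un A S c).det| = 0 := by
    intro c hc hcF
    have : ∃ i ∈ S, c i ∉ T := by
      by_contra hcon
      push Not at hcon
      apply hcF
      rw [hF, Fintype.mem_piFinset]
      intro i
      split_ifs with hi
      · exact hcon i hi
      · exact mem_singleton.2 (mem_fs.1 hc i hi)
    obtain ⟨i, hi, hciT⟩ := this
    have hciS : c i ∉ S := fun h => hciT (hST h)
    have hne : i ≠ c i := fun h => hciS (h ▸ hi)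
    have hz : (un A S c).det = 0 := by
      apply Matrix.det_zero_of_row_eq hne
      simp only [un, hi, hciS, if_true, if_false]
      exact (hunit _ hciT).symm
    rw [hz, mul_zero, abs_zero]
  rw [← Finset.sum_subset hFs hzero]
  have hbound : ∀ c ∈ F, |(mi S r c).det * (un A S c).det| ≤ B * D := by
    intro c hc
    have hcT : ∀ i ∈ S, c i ∈ T := by
      intro i hi
      have := Fintype.mem_piFinset.1 hc i
      rwa [if_pos hi] at this
    by_cases hinj : Set.InjOn c S
    · rw [abs_mul]
      exact mul_le_mul (hmin c hinj hcT) (hloc c hinj hcT) (abs_nonneg _) hB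
    · have hz : (mi S r c).det = 0 := by
        unfold Set.InjOn at hinj
        push Not at hinj
        obtain ⟨i, hi, j, hj, hij, hne⟩ := hinj
        apply Matrix.det_zero_of_column_eq (i := ⟨i, hi⟩) (j := ⟨j, hj⟩)
        · exact fun h => hne (congrArg Subtype.val h)
        · intro k
          simp only [mi, Matrix.of_apply, hij]
      rw [hz, zero_mul, abs_zero]
      positivity
  refine (Finset.sum_le_card_nsmul _ _ _ hbound).trans (le_of_eq ?_)
  have hcard : F.card = T.card ^ S.card := by
    rw [hF, Fintype.card_piFinset]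
    have : ∀ i : N, (if i ∈ S then T else {i}).card = if i ∈ S then T.card else 1 := by
      intro i; split_ifs <;> simp
    simp only [this]
    rw [Finset.prod_ite_mem]
    simp
  rw [hcard, nsmul_eq_mul]
  push_cast
  ring

end Vale.Agent.P155.T211
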