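import Vale.Agent.P155.T211.Apriori
import Vale.Agent.P155.T211.LegDet
import Vale.Agent.P155.F.Arc

/-!
# P155, LEG: many disjoint directed arcs out of a small box
-/

namespace Vale.Agent.P155.T211

open Finset F Skel A4 E1 SW

/-- steps of a matching are short -/
lemma dinf_pm {V : Finset Pt} {m : Pt → Pt} (hm : IsPM V m) (x v : Pt) :
    dinf x (m v) ≤ dinf x v + 1 := by
  by_cases hv : v ∈ V
  · have h1 := dinf_tri x v (m v)
    have h2 := F.dinf_of_adj (hm.adj v hv)
    linarith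
  · rw [hm.off v hv]
    linarith

lemma dinf_suc {V₁ V₂ : Finset Pt} {ω : Conf} (h1 : IsPM V₁ ω.1) (h2 : IsPM V₂ ω.2) (x v : Pt) :
    dinf x (suc ω v) ≤ dinf x v + 1 := by
  unfold suc
  split_ifs
  · exact dinf_pm h1 x v
  · exact dinf_pm h2 x v

/-- points well inside the box are not explored -/
lemma mem_Vin_near {V : Finset Pt} {m : Pt → Pt} (hm : IsPM V m) {x : Pt} {L : ℕ}
    (hV : ∀ v, dinf x v ≤ L → v ∈ V) {v : Pt} (hv : dinf x v ≤ (L : ℤ) - 1) :
    v ∈ Vin V (box x L) m := by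
  rw [mem_Vin, F.mem_box_iff, F.mem_box_iff]
  have h := dinf_pm hm x v
  exact ⟨hV v (by linarith), by linarith, by linarith⟩

/-- **Truncation of arcs.** -/
theorem arc_transfer {ι : Type*} {V : Finset Pt} {ω0 p : Conf} {x : Pt} {s L : ℕ}
    (hω0 : ω0 ∈ DD V) (hV : ∀ v, dinf x v ≤ L → v ∈ V) (hsL : s + 6 ≤ L)
    (hp : p ∈ PM (Vin V (box x L) ω0.1) ×ˢ PM (Vin V (box x L) ω0.2))
    {w : ι → Pt} {k : ι → ℕ} (hA : ArcSys V (glue2 V (box x L) ω0 p) w k)
    (hs : ∀ i, dinf x (w i) ≤ s) (he : ∀ i, (L : ℤ) ≤ dinf x (aend (glue2 V (box x L) ω0 p) w k i)) :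
    ∃ k' : ι → ℕ, ArcSys (Vin V (box x L) ω0.1) p w k' ∧
      ∀ i, (L : ℤ) - 3 ≤ dinf x (aend p w k' i) ∧ dinf x (aend p w k' i) ≤ (L : ℤ) - 2 := by
  classical
  set ω := glue2 V (box x L) ω0 p with hω
  obtain ⟨hp1, hp2⟩ := mem_product.1 hp
  rw [mem_PM] at hp1 hp2
  have h01 := mem_PM.1 (mem_product.1 hω0).1
  have h02 := mem_PM.1 (mem_product.1 hω0).2
  have hω1 : IsPM V ω.1 := glue_PM h01 hp1
  have hω2 : IsPM V ω.2 := glue_PM h02 hp2
  have hsL' : (s : ℤ) + 6 ≤ L := by exact_mod_cast hsL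
  -- equality of the successors near the centre
  have hsuc : ∀ v, dinf x v ≤ (L : ℤ) - 1 → suc ω v = suc p v := by
    intro v hv
    unfold suc
    split_ifs
    · exact glue_mem (mem_Vin_near h01 hV hv)
    · exact glue_mem (mem_Vin_near h02 hV hv)
  have hex : ∀ i, ∃ l, (L : ℤ) - 3 ≤ dinf x ((suc ω)^[2 * l + 1] (w i)) :=
    fun i => ⟨k i, by have := he i; unfold aend at this; linarith⟩
  set k' : ι → ℕ := fun i => Nat.find (hex i) with hk'
  have hk'k : ∀ i, k' i ≤ k i := fun i => Nat.find_min' (hex i) (by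
    have := he i; unfold aend at this; linarith)
  have hend : ∀ i, (L : ℤ) - 3 ≤ dinf x ((suc ω)^[2 * k' i + 1] (w i)) :=
    fun i => Nat.find_spec (hex i)
  have hodd : ∀ i, ∀ l < k' i, dinf x ((suc ω)^[2 * l + 1] (w i)) ≤ (L : ℤ) - 4 := by
    intro i l hl
    have := Nat.find_min (hex i) hl
    linarith [not_le.1 this]
  have heven : ∀ i, ∀ l ≤ k' i, dinf x ((suc ω)^[2 * l] (w i)) ≤ (L : ℤ) - 3 := by
    intro i l hl
    rcases l with _ | l
    · have := hs i
      show dinf x (w i) ≤ _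
      linarith
    · have h1 := hodd i l (by omega)
      have h2 := dinf_suc hω1 hω2 x ((suc ω)^[2 * l + 1] (w i))
      rw [← Function.iterate_succ_apply' (suc ω)] at h2
      have e : 2 * (l + 1) = (2 * l + 1).succ := by omega
      rw [e]
      linarith
  have hall : ∀ i, ∀ j ≤ 2 * k' i + 1, dinf x ((suc ω)^[j] (w i)) ≤ (L : ℤ) - 2 := by
    intro i j hj
    rcases Nat.even_or_odd' j with ⟨l, rfl | rfl⟩
    · have := heven i l (by omega)
      linarith
    · have h1 := heven i l (by omega)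
      have h2 := dinf_suc hω1 hω2 x ((suc ω)^[2 * l] (w i))
      rw [← Function.iterate_succ_apply' (suc ω)] at h2
      linarith
  have heq : ∀ i, ∀ j ≤ 2 * k' i + 1, (suc p)^[j] (w i) = (suc ω)^[j] (w i) := by
    intro i j
    induction j with
    | zero => intro _; rfl
    | succ j ih =>
      intro hj
      rw [Function.iterate_succ_apply', Function.iterate_succ_apply', ih (by omega)]
      rw [hsuc]
      have := hall i j (by omega)
      linarith
  refine ⟨k', ⟨hA.white, ?_, ?_, ?_, ?_⟩, ?_⟩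
  · intro i
    apply mem_Vin_near h01 hV
    have := hs i
    linarith
  · intro i j hj
    rw [heq i j (by omega)]
    have h1 := hall i j (by omega)
    rw [← hsuc _ (by linarith)]
    exact hA.move i j (by have := hk'k i; omega)
  · intro i j hj hj2
    rw [heq i j hj2]
    exact hA.noret i j hj (by have := hk'k i; omega)
  · intro i i' hii j hj j' hj'
    rw [heq i j hj, heq i' j' hj']
    exact hA.disj i i' hii j (by have := hk'k i; omega) j' (by have := hk'k i'; omega)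
  · intro i
    unfold aend
    rw [heq i _ le_rfl]
    exact ⟨hend i, hall i _ le_rfl⟩

/-- valid labels -/
structure Valid {ι : Type*} (V2 : Finset Pt) (x : Pt) (s L : ℕ) (w b c d : ι → Pt) : Prop where
  w_inj : Function.Injective w
  w_white : ∀ i, White (w i)
  w_near : ∀ i, dinf x (w i) ≤ s
  b_inj : Function.Injective b
  b_black : ∀ i, Black (b i)
  b_far : ∀ i, (L : ℤ) - 3 ≤ dinf x (b i) ∧ dinf x (b i) ≤ (L : ℤ) - 2
  c_inj : Function.Injective c
  c_black : ∀ i, Black (c i)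
  c_mem : ∀ i, c i ∈ V2
  c_near : ∀ i, dinf x (c i) ≤ (s : ℤ) + 1
  d_inj : Function.Injective d
  d_white : ∀ i, White (d i)
  d_mem : ∀ i, d i ∈ V2
  d_far : ∀ i, (L : ℤ) - 4 ≤ dinf x (d i)

section
variable {ι : Type*} {V1 V2 : Finset Pt} {p : Conf} {x : Pt} {s L : ℕ}

lemma valid_of_arcs (h1 : IsPM V1 p.1) (h2 : IsPM V2 p.2)
    (hV2 : ∀ v, dinf x v ≤ (L : ℤ) - 1 → v ∈ V2) (hsL : s + 6 ≤ L)
    {w : ι → Pt} {k : ι → ℕ} (hA : ArcSys V1 p w k)
    (hs : ∀ i, dinf x (w i) ≤ s)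
    (he : ∀ i, (L : ℤ) - 3 ≤ dinf x (aend p w k i) ∧ dinf x (aend p w k i) ≤ (L : ℤ) - 2) :
    Valid V2 x s L w (aend p w k) (fun i => p.2 (w i)) (fun i => p.2 (aend p w k i)) := by
  have hsL' : (s : ℤ) + 6 ≤ L := by exact_mod_cast hsL
  have hwV : ∀ i, w i ∈ V2 := fun i => hV2 _ (by have := hs i; linarith)
  have hbV : ∀ i, aend p w k i ∈ V2 := fun i => hV2 _ (by have := (he i).2; linarith)
  refine ⟨hA.inj_w, hA.white, hs, hA.inj_end, hA.black_end h1 h2, he, ?_, ?_, ?_, ?_, ?_, ?_, ?_, ?_⟩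
  · intro i j hij
    exact hA.inj_w (IsPM.inj h2 hij)
  · intro i
    exact IsPM.black h2 (hwV i) (hA.white i)
  · intro i
    exact IsPM.mem h2 (hwV i)
  · intro i
    have := dinf_pm h2 x (w i)
    have := hs i
    linarith
  · intro i j hij
    exact hA.inj_end (IsPM.inj h2 hij)
  · intro i
    exact IsPM.white h2 (hbV i) (hA.black_end h1 h2 i)
  · intro i
    exact IsPM.mem h2 (hbV i)
  · intro i
    have h3 := dinf_pm h2 x (p.2 (aend p w k i))
    rw [h2.invol] at h3
    have := (he i).1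
    linarith

variable [Fintype ι]

lemma legC_nonneg (n J s ρ : ℕ) {Mx : ℝ} (hMx : 0 ≤ Mx) : 0 ≤ legC n J s ρ Mx := by
  unfold legC
  positivity

/-- bound for fixed labels -/
lemma label_bound {T : Temp} (hV1 : Sub T V1) (hV2 : Sub T V2) (J ρ : ℕ)
    (hJ : 1 ≤ J) (hρ : 128 * J * (s + 2) ≤ ρ) (hL : 2 * ρ + 8 ≤ L)
    (hV1L : V1 ⊆ box x L) (hV1r : ∀ v, dinf x v ≤ (L : ℤ) - 1 → v ∈ V1)
    (hV2r : ∀ v, dinf x v ≤ (L : ℤ) - 1 → v ∈ V2) (heven : Even (Fintype.card ι)) {Mx : ℝ} (hMx : 1 ≤ Mx) (hM1 : AP V1 Mx) (hM2 : AP V2 Mx)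
    {w b c d : ι → Pt} (hv : Valid V2 x s L w b c d) :
    ((Z (V1 \ (univ.image w ∪ univ.image b)) *
        Z ((V2 \ ((univ.image w ∪ univ.image b) ∪ (univ.image c ∪ univ.image d))) ∪
          (univ.image w ∪ univ.image b)) : ℕ) : ℝ) ≤
      (legC (Fintype.card ι) J s ρ Mx * ((Fintype.card ι).factorial * Mx ^ Fintype.card ι)) *
        (Z V1 * Z V2) := by
  classical
  have hMx0 : 0 ≤ Mx := zero_le_one.trans hMx
  have hsL : (s : ℤ) + 8 ≤ L := by
    have : s + 8 ≤ L := by nlinarith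
    exact_mod_cast this
  have hcw : (univ.image w).card = Fintype.card ι := card_image_of_injective _ hv.w_inj
  have hcb : (univ.image b).card = Fintype.card ι := card_image_of_injective _ hv.b_inj
  have hcc : (univ.image c).card = Fintype.card ι := card_image_of_injective _ hv.c_inj
  have hcd : (univ.image d).card = Fintype.card ι := card_image_of_injective _ hv.d_inj
  have e1 := leg_ratio hV1 x J s ρ L hJ hρ hL hV1L (fun v hvv => hV1r v (by linarith))
    (univ.image w) (univ.image b)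
    (by
      intro a ha
      obtain ⟨i, -, rfl⟩ := mem_image.1 ha
      exact ⟨hv.w_white i, hv.w_near i⟩)
    (by
      intro a ha
      obtain ⟨i, -, rfl⟩ := mem_image.1 ha
      exact ⟨hV1r _ (by have := (hv.b_far i).2; linarith), hv.b_black i, (hv.b_far i).1⟩)
    (by rw [hcw, hcb]) (by rw [hcw]; exact heven) hMx hM1
  rw [hcw] at e1
  have hset : (V2 \ ((univ.image w ∪ univ.image b) ∪ (univ.image c ∪ univ.image d))) ∪
      (univ.image w ∪ univ.image b) = V2 \ (univ.image d ∪ univ.image c) := by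
    have ew : ∀ v ∈ univ.image w, v ∈ V2 ∧ v ∉ univ.image c ∧ v ∉ univ.image d := by
      intro v hvm
      obtain ⟨i, -, rfl⟩ := mem_image.1 hvm
      have h1 := hv.w_near i
      refine ⟨hV2r _ (by linarith), ?_, ?_⟩
      · intro h
        obtain ⟨j, -, hj⟩ := mem_image.1 h
        have h2 := hv.c_black j
        rw [hj] at h2
        exact black_iff_nw.1 h2 (hv.w_white i)
      · intro h
        obtain ⟨j, -, hj⟩ := mem_image.1 h
        have h2 := hv.d_far j
        rw [hj] at h2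
        linarith
    have eb : ∀ v ∈ univ.image b, v ∈ V2 ∧ v ∉ univ.image c ∧ v ∉ univ.image d := by
      intro v hvm
      obtain ⟨i, -, rfl⟩ := mem_image.1 hvm
      have h1 := hv.b_far i
      refine ⟨hV2r _ (by linarith), ?_, ?_⟩
      · intro h
        obtain ⟨j, -, hj⟩ := mem_image.1 h
        have h2 := hv.c_near j
        rw [hj] at h2
        linarith
      · intro h
        obtain ⟨j, -, hj⟩ := mem_image.1 h
        have h2 := hv.d_white j
        rw [hj] at h2
        exact black_iff_nw.1 (hv.b_black i) h2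
    ext v
    simp only [mem_union (s := V2 \ _), mem_union (s := univ.image w), mem_sdiff (s := V2),
      mem_union (s := univ.image w ∪ univ.image b), mem_union (s := univ.image c),
      mem_union (s := univ.image d)]
    have h1 := ew v
    have h2 := eb v
    tauto
  have e2 := kuo_iter V2 Mx hMx0 (Fintype.card ι) (univ.image d) (univ.image c)
    (by
      intro v hvm
      obtain ⟨i, -, rfl⟩ := mem_image.1 hvm
      exact hv.d_mem i)
    (by
      intro v hvm
      obtain ⟨i, -, rfl⟩ := mem_image.1 hvm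
      exact hv.c_mem i)
    (by
      intro v hvm
      obtain ⟨i, -, rfl⟩ := mem_image.1 hvm
      exact hv.d_white i)
    (by
      intro v hvm
      obtain ⟨i, -, rfl⟩ := mem_image.1 hvm
      exact hv.c_black i)
    hcd hcc (Sub.Z_pos hV2)
    (by
      intro u hu v hvm
      obtain ⟨i, -, rfl⟩ := mem_image.1 hu
      obtain ⟨j, -, rfl⟩ := mem_image.1 hvm
      exact hM2 _ _ (hv.d_mem i) (hv.c_mem j) (hv.d_white i) (hv.c_black j))
  rw [hset]
  push_cast
  have hC := legC_nonneg (Fintype.card ι) J s ρ hMx0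
  calc (Z (V1 \ (univ.image w ∪ univ.image b)) : ℝ) * Z (V2 \ (univ.image d ∪ univ.image c))
      ≤ (legC (Fintype.card ι) J s ρ Mx * Z V1) *
        ((Fintype.card ι).factorial * Mx ^ Fintype.card ι * Z V2) := by gcongr
    _ = _ := by ring
/-- all candidate labels -/
noncomputable def labels (ι : Type*) [Fintype ι] (V2 : Finset Pt) (x : Pt) (s L : ℕ) :
    Finset ((ι → Pt) × (ι → Pt) × (ι → Pt) × (ι → Pt)) := by
  classical
  exact ((Fintype.piFinset fun _ : ι => box x L) ×ˢ (Fintype.piFinset fun _ : ι => box x L) ×ˢ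
    (Fintype.piFinset fun _ : ι => box x L) ×ˢ (Fintype.piFinset fun _ : ι => box x L)).filter
    (fun l => Valid V2 x s L l.1 l.2.1 l.2.2.1 l.2.2.2)

lemma card_labels (V2 : Finset Pt) (x : Pt) (s L : ℕ) :
    (labels ι V2 x s L).card ≤ ((2 * L + 1) ^ 2) ^ (4 * Fintype.card ι) := by
  classical
  unfold labels
  refine (card_filter_le _ _).trans ?_
  rw [card_product, card_product, card_product, Fintype.card_piFinset, prod_const, card_box',
    card_univ]
  apply le_of_eq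
  ring

/-- **Counting.** -/
theorem leg_count {T : Temp} (hV1 : Sub T V1) (hV2 : Sub T V2) (J ρ : ℕ)
    (hJ : 1 ≤ J) (hρ : 128 * J * (s + 2) ≤ ρ) (hL : 2 * ρ + 8 ≤ L)
    (hV1L : V1 ⊆ box x L) (hV2L : V2 ⊆ box x L) (hV1r : ∀ v, dinf x v ≤ (L : ℤ) - 1 → v ∈ V1)
    (hV2r : ∀ v, dinf x v ≤ (L : ℤ) - 1 → v ∈ V2) (heven : Even (Fintype.card ι)) {Mx : ℝ}
    (hMx : 1 ≤ Mx) (hM1 : AP V1 Mx) (hM2 : AP V2 Mx) (E : Finset Conf)
    (hE : E ⊆ PM V1 ×ˢ PM V2)
    (h : ∀ p ∈ E, ∃ (w : ι → Pt) (k : ι → ℕ), ArcSys V1 p w k ∧ (∀ i, dinf x (w i) ≤ s) ∧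
      ∀ i, (L : ℤ) - 3 ≤ dinf x (aend p w k i) ∧ dinf x (aend p w k i) ≤ (L : ℤ) - 2) :
    (E.card : ℝ) ≤ (((2 * L + 1 : ℕ) ^ 2) ^ (4 * Fintype.card ι) *
      (legC (Fintype.card ι) J s ρ Mx * ((Fintype.card ι).factorial * Mx ^ Fintype.card ι))) *
        (Z V1 * Z V2) := by
  classical
  have hMx0 : 0 ≤ Mx := zero_le_one.trans hMx
  have hsL : s + 8 ≤ L := by nlinarith
  have hsL' : (s : ℤ) + 8 ≤ L := by exact_mod_cast hsL
  have h1 := hasSys_union_le V1 V2 (labels ι V2 x s L) E hE (by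
    intro p hp
    obtain ⟨w, k, hA, hs, he⟩ := h p hp
    obtain ⟨hp1, hp2⟩ := mem_product.1 (hE hp)
    rw [mem_PM] at hp1 hp2
    have hv := valid_of_arcs hp1 hp2 hV2r (by omega) hA hs he
    refine ⟨(w, aend p w k, fun i => p.2 (w i), fun i => p.2 (aend p w k i)), ?_,
      k, hA, fun i => ⟨rfl, rfl, rfl⟩⟩
    unfold labels
    rw [mem_filter]
    refine ⟨?_, hv⟩
    simp only [mem_product (s := Fintype.piFinset _), Fintype.mem_piFinset]
    refine ⟨fun i => ?_, fun i => ?_, fun i => ?_, fun i => ?_⟩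
    · rw [F.mem_box_iff]; have := hv.w_near i; linarith
    · rw [F.mem_box_iff]; have := (hv.b_far i).2; linarith
    · exact hV2L (hv.c_mem i)
    · exact hV2L (hv.d_mem i))
  have h2 : (E.card : ℝ) ≤ ∑ l ∈ labels ι V2 x s L,
      ((Z (V1 \ (univ.image l.1 ∪ univ.image l.2.1)) *
        Z ((V2 \ ((univ.image l.1 ∪ univ.image l.2.1) ∪
          (univ.image l.2.2.1 ∪ univ.image l.2.2.2))) ∪
            (univ.image l.1 ∪ univ.image l.2.1)) : ℕ) : ℝ) := by exact_mod_cast h1
  refine h2.trans ?_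
  calc _ ≤ ∑ _l ∈ labels ι V2 x s L,
        (legC (Fintype.card ι) J s ρ Mx * ((Fintype.card ι).factorial * Mx ^ Fintype.card ι)) *
          ((Z V1 : ℝ) * Z V2) := by
        apply sum_le_sum
        intro l hl
        unfold labels at hl
        exact label_bound hV1 hV2 J ρ hJ hρ hL hV1L hV1r hV2r heven hMx hM1 hM2
          (mem_filter.1 hl).2
    _ = ((labels ι V2 x s L).card : ℝ) *
        ((legC (Fintype.card ι) J s ρ Mx * ((Fintype.card ι).factorial * Mx ^ Fintype.card ι)) *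
          ((Z V1 : ℝ) * Z V2)) := by rw [sum_const, nsmul_eq_mul]
    _ ≤ (((2 * L + 1 : ℕ) ^ 2) ^ (4 * Fintype.card ι) : ℕ) *
        ((legC (Fintype.card ι) J s ρ Mx * ((Fintype.card ι).factorial * Mx ^ Fintype.card ι)) *
          ((Z V1 : ℝ) * Z V2)) := by
        have hC := legC_nonneg (Fintype.card ι) J s ρ hMx0
        apply mul_le_mul_of_nonneg_right _ (by positivity)
        exact_mod_cast card_labels V2 x s L
    _ = _ := by push_cast; ring

end

/-- the arc event -/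
def ArcEv (V : Finset Pt) (n : ℕ) (x : Pt) (s L : ℕ) (ω : Conf) : Prop :=
  ∃ (w : Fin n → Pt) (k : Fin n → ℕ), ArcSys V ω w k ∧ (∀ i, dinf x (w i) ≤ s) ∧
    ∀ i, (L : ℤ) ≤ dinf x (aend ω w k i)

theorem sub_Vin' {T : Temp} {B : Finset Pt} {m : Pt → Pt} (hm : m ∈ PM T.V) :
    Sub T (Vin T.V B m) :=
  ⟨m, hm, fun _ hv => ⟨(mem_Vin.1 hv).1, Vin_closed (mem_PM.1 hm) hv⟩⟩

open Classical in
/-- **The probability of many arcs**, explicit form. -/
theorem leg_prob (T : Temp) (n : ℕ) (x : Pt) (s L j ρ : ℕ) (hn : Even n) (hj : 1 ≤ j)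
    (hρ : 128 * j * (s + 2) ≤ ρ) (hL : 2 * ρ + 8 ≤ L) (hT : ∀ v, dinf x v ≤ L → v ∈ T.V)
    {Mx : ℝ} (hMx : 1 ≤ Mx) :
    Pr T.V (ArcEv T.V n x s L) ≤
      2 * Ex1 T.V (fun m => if AP (Vin T.V (box x L) m) Mx then (0 : ℝ) else 1) +
      (((2 * L + 1 : ℕ) ^ 2) ^ (4 * n) * (legC n j s ρ Mx * (n.factorial * Mx ^ n))) := by
  have hMx0 : 0 ≤ Mx := zero_le_one.trans hMx
  have hsL : s + 8 ≤ L := by nlinarith
  set q : ℝ := (((2 * L + 1 : ℕ) ^ 2) ^ (4 * n) * (legC n j s ρ Mx * (n.factorial * Mx ^ n)))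
    with hq
  have hq0 : 0 ≤ q := by
    have hC := legC_nonneg n j s ρ hMx0
    positivity
  set B := box x L with hB
  set bad : (Pt → Pt) → ℝ := fun m => if AP (Vin T.V B m) Mx then (0 : ℝ) else 1 with hbad
  set g : Conf → ℝ := fun ω => if ArcEv T.V n x s L ω then (1 : ℝ) else 0 with hg
  have h1 : Pr T.V (ArcEv T.V n x s L) = Ex T.V g := by
    rw [E.Pr_eq_avg, J.Ex_eq_avg]
  have h2 : ∀ ω ∈ DD T.V, cEx T.V (outside (Fk T.V 0) (B : Set Pt)) g ω ≤
      bad ω.1 + bad ω.2 + q := by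
    intro ω hω
    rw [cEx_outside_eq hω]
    set V1 := Vin T.V B ω.1 with hV1
    set V2 := Vin T.V B ω.2 with hV2
    have hg01 : ∀ ω', 0 ≤ g ω' ∧ g ω' ≤ 1 := by
      intro ω'
      rw [hg]
      simp only
      split_ifs <;> norm_num
    by_cases hgood : AP V1 Mx ∧ AP V2 Mx
    · have hb1 : bad ω.1 = 0 := by
        rw [hbad]; simp only
        rw [if_pos hgood.1]
      have hb2 : bad ω.2 = 0 := by
        rw [hbad]; simp only
        rw [if_pos hgood.2]
      rw [hb1, hb2, zero_add, zero_add]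
      have h01 := mem_PM.1 (mem_product.1 hω).1
      have h02 := mem_PM.1 (mem_product.1 hω).2
      have hZ1 : (0 : ℝ) < Z V1 := by
        have : 0 < Z V1 := card_pos.2 (PM_Vin_nonempty h01)
        exact_mod_cast this
      have hZ2 : (0 : ℝ) < Z V2 := by
        have : 0 < Z V2 := card_pos.2 (PM_Vin_nonempty h02)
        exact_mod_cast this
      set E := (PM V1 ×ˢ PM V2).filter (fun p => ArcEv T.V n x s L (glue2 T.V B ω p)) with hE
      have hcount := leg_count (ι := Fin n) (V1 := V1) (V2 := V2) (T := T) (x := x) (s := s)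
        (L := L) (sub_Vin' (mem_product.1 hω).1) (sub_Vin' (mem_product.1 hω).2) j ρ hj hρ hL
        (fun v hv => (mem_Vin.1 hv).2.1) (fun v hv => (mem_Vin.1 hv).2.1)
        (fun v hv => mem_Vin_near h01 hT hv) (fun v hv => mem_Vin_near h02 hT hv)
        (by rw [Fintype.card_fin]; exact hn) hMx hgood.1 hgood.2 E (filter_subset _ _) (by
          intro p hp
          obtain ⟨hp1, w, k, hA, hs, he⟩ := mem_filter.1 hp
          obtain ⟨k', hA', he'⟩ := arc_transfer hω hT (by omega) hp1 hA hs he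
          exact ⟨w, k', hA', hs, he'⟩)
      rw [Fintype.card_fin] at hcount
      rw [J.avg_real]
      have hsum : ∑ p ∈ PM V1 ×ˢ PM V2, g (glue2 T.V B ω p) = E.card := by
        rw [hE, card_filter]
        push_cast
        rfl
      rw [hsum, card_product]
      push_cast
      rw [inv_mul_eq_div, div_le_iff₀ (by
        have h3 : (0 : ℝ) < (PM V1).card := hZ1
        have h4 : (0 : ℝ) < (PM V2).card := hZ2
        positivity)]
      exact hcount
    · have h3 : 1 ≤ bad ω.1 + bad ω.2 := by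
        rw [hbad]
        simp only
        by_cases hA : AP V1 Mx
        · have hA2 : ¬ AP V2 Mx := fun h => hgood ⟨hA, h⟩
          rw [if_pos hA, if_neg hA2]; norm_num
        · rw [if_neg hA]
          split_ifs <;> norm_num
      have h4 : J.avg (PM V1 ×ˢ PM V2) (fun p => g (glue2 T.V B ω p)) ≤ 1 :=
        J.avg_le_const zero_le_one (fun p _ => (hg01 _).2)
      linarith
  rw [h1, ← J.Ex_cEx (E.isExpl_out T.V (B : Set Pt)) g]
  refine (J.Ex_mono h2).trans ?_
  have h5 : Ex T.V (fun ω => bad ω.1 + bad ω.2 + q) ≤ 2 * Ex1 T.V bad + q := by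
    have e1 := E.Ex_fst T.V bad
    have e2 := E.Ex_snd T.V bad
    have e3 : Ex T.V (fun ω => bad ω.1 + bad ω.2 + q) =
        Ex T.V (fun ω => bad ω.1) + Ex T.V (fun ω => bad ω.2) + Ex T.V (fun _ => q) := by
      rw [J.Ex_eq_avg, J.Ex_eq_avg, J.Ex_eq_avg, J.Ex_eq_avg, ← J.avg_add, ← J.avg_add]
    rw [e3, e1, e2]
    have e4 : Ex T.V (fun _ => q) ≤ q := J.Ex_le_const hq0 (fun _ _ => le_rfl)
    linarith
  exact h5

end Vale.Agent.P155.T211
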