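import Vale.Agent.P155.T211.Harm
import Vale.Agent.P155.T211.Laplace
import Vale.Agent.P155.F.F3Cut
import Vale.Agent.P155.A4.Main
import Vale.Agent.P155.A.Temp2

/-!
# P155, LEG: determinants with slot rows far away from the centre of a box
-/

namespace Vale.Agent.P155.T211

open Finset F Skel A4

variable {T : Temp} {V : Finset Pt}

/-- the row function `v ↦ ∑_b κ(w,b) K⁻¹(b,v)` -/
noncomputable def rowF (V : Finset Pt) (κ : Pt → Pt → ℝ) (w v : Pt) : ℝ :=
  ∑ b ∈ V.filter Black, κ w b * Kinv V b v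

lemma mul_GR_eq_rowF {m0 : Pt → Pt} (h0 : IsPM V m0) (κ : Pt → Pt → ℝ) (w w'' : WV V) :
    (MR V m0 κ * GR V m0) w w'' = rowF V κ w w'' := by
  rw [Matrix.mul_apply]
  exact sum_m0 h0 (fun b => κ w b * Kinv V b w'')

lemma KTop_rowF (hdet : (KM V).det ≠ 0) {b' : Pt} (hb' : b' ∈ V) (hB : Black b')
    (κ : Pt → Pt → ℝ) (w : Pt) : KTop (rowF V κ w) b' = κ w b' := by
  have h1 : KTop (rowF V κ w) b'
      = ∑ b ∈ V.filter Black, κ w b * KTop (fun v => Kinv V b v) b' := by
    unfold KTop rowF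
    rw [← Finset.sum_sub_distrib, ← Finset.sum_sub_distrib, Finset.mul_sum,
      ← Finset.sum_add_distrib]
    exact Finset.sum_congr rfl fun b _ => by ring
  rw [h1, Finset.sum_eq_single b']
  · rw [KTop_Kinv_row hdet hb' hb' hB, if_pos rfl, mul_one]
  · intro b hb hne
    rw [KTop_Kinv_row hdet (mem_filter.1 hb).1 hb' hB, if_neg (Ne.symm hne), mul_zero]
  · intro h
    exact absurd (mem_filter.2 ⟨hb', hB⟩) h

/-- bound of the entries of the inverse -/
lemma abs_Kinv_le (hV : Sub T V) {Mx : ℝ} (hMx : 0 ≤ Mx)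
    (hM : ∀ w b, w ∈ V → b ∈ V → White w → Black b → (Z (V \ {w, b}) : ℝ) ≤ Mx * Z V)
    {b w : Pt} (hb : Black b) (hw : White w) : |Kinv V b w| ≤ Mx := by
  by_cases hbV : b ∈ V
  · by_cases hwV : w ∈ V
    · refine (a_le T V hV b w hbV hwV hb hw).trans ?_
      have hpos : (0 : ℝ) < Z V := by exact_mod_cast Sub.Z_pos hV
      rw [div_le_iff₀ hpos]
      exact hM w b hwV hbV hw hb
    · rw [Kinv_off_right hwV, abs_zero]; exact hMx
  · rw [Kinv_off_left hbV, abs_zero]; exact hMx

lemma abs_rowF_le (hV : Sub T V) {Mx : ℝ} (hMx : 0 ≤ Mx)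
    (hM : ∀ w b, w ∈ V → b ∈ V → White w → Black b → (Z (V \ {w, b}) : ℝ) ≤ Mx * Z V)
    {κ : Pt → Pt → ℝ} {w v : Pt} (h1 : ∀ b, |κ w b| ≤ 1)
    (h2 : ∀ b, κ w b ≠ 0 → Adj w b) (hv : White v) : |rowF V κ w v| ≤ 4 * Mx := by
  unfold rowF
  have e : ∑ b ∈ V.filter Black, κ w b * Kinv V b v =
      ∑ b ∈ (V.filter Black) ∩ nbrs w, κ w b * Kinv V b v := by
    symm
    apply sum_subset inter_subset_left
    intro b hb hb'
    have : κ w b = 0 := by
      by_contra hne
      exact hb' (mem_inter.2 ⟨hb, mem_nbrs.2 (h2 b hne)⟩)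
    rw [this, zero_mul]
  rw [e]
  calc |∑ b ∈ (V.filter Black) ∩ nbrs w, κ w b * Kinv V b v|
      ≤ ∑ b ∈ (V.filter Black) ∩ nbrs w, |κ w b * Kinv V b v| := abs_sum_le_sum_abs _ _
    _ ≤ ∑ b ∈ (V.filter Black) ∩ nbrs w, Mx := by
        apply sum_le_sum
        intro b hb
        have hbB := (mem_filter.1 (mem_inter.1 hb).1).2
        rw [abs_mul]
        calc |κ w b| * |Kinv V b v| ≤ 1 * Mx :=
              mul_le_mul (h1 b) (abs_Kinv_le hV hMx hM hbB hv) (abs_nonneg _) zero_le_one
          _ = Mx := one_mul _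
    _ = (((V.filter Black) ∩ nbrs w).card : ℝ) * Mx := by rw [sum_const, nsmul_eq_mul]
    _ ≤ 4 * Mx := by
        apply mul_le_mul_of_nonneg_right _ hMx
        exact_mod_cast (card_le_card inter_subset_right).trans card_le_four

lemma rowF_slot {κ : Pt → Pt → ℝ} {w b0 v : Pt} (hb0 : b0 ∈ V) (hB : Black b0)
    (h : ∀ b, κ w b = if b = b0 then 1 else 0) : rowF V κ w v = Kinv V b0 v := by
  unfold rowF
  rw [Finset.sum_eq_single b0]
  · rw [h, if_pos rfl, one_mul]
  · intro b _ hne
    rw [h, if_neg hne, zero_mul]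
  · intro hh
    exact absurd (mem_filter.2 ⟨hb0, hB⟩) hh

/-- the white-by-black matrix with slot rows -/
noncomputable def slotK (As : Finset Pt) (g : Pt → Pt) (κ0 : Pt → Pt → ℝ) (w b : Pt) : ℝ :=
  if w ∈ As then (if b = g w then 1 else 0) else κ0 w b

/-- **Slot rows far away.** -/
theorem slot_bound (hVs : Sub T V) {m0 : Pt → Pt} (h0 : IsPM V m0)
    (x : Pt) (J s ρ r : ℕ) (hJ : 1 ≤ J) (hρ : 128 * J * (s + 1) ≤ ρ) (hr : 2 * ρ + 3 ≤ r)
    (hVr : ∀ v, dinf x v ≤ r → v ∈ V)
    (κ0 : Pt → Pt → ℝ) (hκ1 : ∀ w b, |κ0 w b| ≤ 1) (hκ2 : ∀ w b, κ0 w b ≠ 0 → Adj w b)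
    (As P Q : Finset Pt) (g : Pt → Pt)
    (hK : ∀ w ∈ V, w ∉ P → w ∉ Q → ∀ b, κ0 w b = K w b)
    (hAs : ∀ a ∈ As, a ∈ V ∧ White a ∧ dinf x a ≤ s)
    (hg : ∀ a ∈ As, g a ∈ V ∧ Black (g a) ∧ (r : ℤ) < dinf x (g a))
    (hP : ∀ w ∈ P, (r : ℤ) + 1 < dinf x w) (hQ : ∀ w ∈ Q, dinf x w ≤ s)
    {Mx : ℝ} (hMx : 1 ≤ Mx)
    (hM : ∀ w b, w ∈ V → b ∈ V → White w → Black b → (Z (V \ {w, b}) : ℝ) ≤ Mx * Z V)
    (N Tc : ℕ) (hN : As.card + P.card ≤ N) (hT : As.card + P.card + Q.card ≤ Tc) (hTc : 1 ≤ Tc) :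
    |detR V m0 (slotK As g κ0)| ≤ ((Tc : ℝ) ^ N * (((2 * J ^ 2 + N : ℕ) : ℝ) ^ N * N.factorial
      * (3 * (4 * Mx)) ^ N * (64 * J * (s + 1 : ℕ) / ρ) ^ (J * (As.card - 2 * J ^ 2)))
      * (4 ^ N * (N.factorial * Mx ^ N))) * Z V := by
  classical
  have hMx0 : 0 ≤ Mx := zero_le_one.trans hMx
  have hpos := Sub.Z_pos hVs
  have hposR : (0 : ℝ) < Z V := by exact_mod_cast hpos
  have hZ := abs_detR_K signLoop insideLoop hVs h0
  have hinv : InvRel V := invRel_of signLoop insideLoop hVs
  have hKM : (KM V).det ≠ 0 := (a_inv T V hVs).1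
  set κ := slotK As g κ0 with hκdef
  set S : Finset (WV V) := univ.filter (fun w => (w : Pt) ∈ As ∨ (w : Pt) ∈ P) with hS
  set Tt : Finset (WV V) := univ.filter (fun w => (w : Pt) ∈ As ∨ (w : Pt) ∈ P ∨ (w : Pt) ∈ Q)
    with hTt
  have hST : S ⊆ Tt := by
    intro w hw
    rw [hTt, mem_filter]
    rw [hS, mem_filter] at hw
    exact ⟨mem_univ _, hw.2.elim Or.inl (fun h => Or.inr (Or.inl h))⟩
  set A : Matrix (WV V) (WV V) ℝ := MR V m0 κ * GR V m0 with hA
  have hMG : MR V m0 K * GR V m0 = 1 := MR_mul_GR h0 hinv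
  have hGM : GR V m0 * MR V m0 K = 1 := mul_eq_one_comm.1 hMG
  have hdetA : |detR V m0 κ| = |A.det| * Z V := by
    have h1 : MR V m0 κ = A * MR V m0 K := by
      rw [hA, Matrix.mul_assoc, hGM, Matrix.mul_one]
    rw [detR_def, h1, Matrix.det_mul, abs_mul, ← detR_def V m0 K, hZ]
  -- cards
  have hcardS : S.card ≤ N := by
    have h1 : S.card ≤ (As ∪ P).card := by
      rw [← card_image_of_injective S Subtype.val_injective]
      apply card_le_card
      intro v hv
      obtain ⟨w, hw, rfl⟩ := mem_image.1 hv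
      exact mem_union.2 (mem_filter.1 hw).2
    exact h1.trans ((card_union_le _ _).trans hN)
  have hcardT : Tt.card ≤ Tc := by
    have h1 : Tt.card ≤ (As ∪ P ∪ Q).card := by
      rw [← card_image_of_injective Tt Subtype.val_injective]
      apply card_le_card
      intro v hv
      obtain ⟨w, hw, rfl⟩ := mem_image.1 hv
      rw [mem_union, mem_union]
      have := (mem_filter.1 hw).2
      tauto
    refine h1.trans ((card_union_le _ _).trans ?_)
    have := card_union_le As P
    omega
  -- rows outside `Tt`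
  have hunit : ∀ i, i ∉ Tt → A i = Pi.single i 1 := by
    intro i hi
    have hi' : ¬ ((i : Pt) ∈ As ∨ (i : Pt) ∈ P ∨ (i : Pt) ∈ Q) :=
      fun h => hi (mem_filter.2 ⟨mem_univ _, h⟩)
    push Not at hi'
    have h1 : A i = (MR V m0 K * GR V m0) i := by
      funext j
      rw [hA, Matrix.mul_apply, Matrix.mul_apply]
      apply sum_congr rfl
      intro k _
      congr 1
      simp only [MR, Matrix.of_apply, hκdef, slotK, hi'.1, if_false]
      exact hK i i.mem hi'.2.1 hi'.2.2 _
    rw [h1, hMG]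
    funext j
    rw [Matrix.one_apply, Pi.single_apply]
    by_cases h : j = i
    · rw [if_pos h, if_pos h.symm]
    · rw [if_neg h, if_neg (Ne.symm h)]
  have hrep : rep A S A = A := by
    funext i
    simp [rep]
  set B : ℝ := ((2 * J ^ 2 + N : ℕ) : ℝ) ^ N * N.factorial
      * (3 * (4 * Mx)) ^ N * (64 * J * (s + 1 : ℕ) / ρ) ^ (J * (As.card - 2 * J ^ 2)) with hB
  set D : ℝ := 4 ^ N * (N.factorial * Mx ^ N) with hD
  have hρ0 : 0 < ρ := by
    have : 0 < 128 * J * (s + 1) := by positivity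
    omega
  have hρR : (0 : ℝ) < ρ := by exact_mod_cast hρ0
  have hθ0 : 0 ≤ (64 * J * (s + 1 : ℕ) / ρ : ℝ) := by positivity
  have hθ1 : (64 * J * (s + 1 : ℕ) / ρ : ℝ) ≤ 1 := by
    rw [div_le_one hρR]
    have : (128 * J * (s + 1 : ℕ) : ℝ) ≤ ρ := by exact_mod_cast hρ
    have h2 : (0 : ℝ) ≤ J * (s + 1 : ℕ) := by positivity
    linarith
  -- the row functions
  have hAij : ∀ i j : WV V, A i j = rowF V κ i j := fun i j => mul_GR_eq_rowF h0 κ i j
  have hrowb : ∀ i : WV V, i ∈ S → ∀ v, White v → |rowF V κ i v| ≤ 4 * Mx := by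
    intro i hi v hv
    by_cases hiA : (i : Pt) ∈ As
    · have h1 := hg i hiA
      rw [rowF_slot h1.1 h1.2.1 (fun b => by rw [hκdef]; simp only [slotK, hiA, if_true])]
      refine (abs_Kinv_le hVs hMx0 hM h1.2.1 hv).trans (by linarith)
    · apply abs_rowF_le hVs hMx0 hM _ _ hv
      · intro b
        rw [hκdef]; simp only [slotK, hiA, if_false]
        exact hκ1 _ _
      · intro b hb
        rw [hκdef] at hb; simp only [slotK, hiA, if_false] at hb
        exact hκ2 _ _ hb
  have hrowh : ∀ i : WV V, i ∈ S → ∀ b, Black b → dinf x b ≤ r → KTop (rowF V κ i) b = 0 := by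
    intro i hi b hbB hb
    rw [KTop_rowF hKM (hVr b hb) hbB]
    by_cases hiA : (i : Pt) ∈ As
    · rw [hκdef]; simp only [slotK, hiA, if_true]
      rw [if_neg]
      rintro rfl
      have := (hg i hiA).2.2
      linarith
    · have hiP : (i : Pt) ∈ P := by
        rcases (mem_filter.1 hi).2 with h | h
        · exact absurd h hiA
        · exact h
      rw [hκdef]; simp only [slotK, hiA, if_false]
      by_contra hne
      have h1 := hκ2 _ _ hne
      have h2 := hP i hiP
      have h3 := dinf_tri x b i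
      have h4 := dinf_of_adj (adj_comm' h1)
      linarith
  -- minors
  have hmin : ∀ c : WV V → WV V, Set.InjOn c S → (∀ i ∈ S, c i ∈ Tt) → |(mi S A c).det| ≤ B := by
    intro c hc hcT
    set E : Finset S := univ.filter (fun i => (c i : Pt) ∈ P) with hE
    have hEc : E.card + As.card ≤ S.card := by
      set PV : Finset (WV V) := univ.filter (fun w => (w : Pt) ∈ P) with hPV
      set AV : Finset (WV V) := univ.filter (fun w => (w : Pt) ∈ As) with hAV
      have h1 : E.card ≤ PV.card := by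
        apply card_le_card_of_injOn (fun i : S => c i)
        · intro i hi
          have hi' : i ∈ E := mem_coe.1 hi
          exact mem_coe.2 (mem_filter.2 ⟨mem_univ _, (mem_filter.1 hi').2⟩)
        · intro i _ j _ hij
          exact Subtype.ext (hc i.2 j.2 hij)
      have h2 : AV.card = As.card := by
        rw [← card_image_of_injective AV Subtype.val_injective]
        congr 1
        ext v
        constructor
        · intro hv
          obtain ⟨w, hw, rfl⟩ := mem_image.1 hv
          exact (mem_filter.1 hw).2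
        · intro hv
          have := hAs v hv
          exact mem_image.2 ⟨⟨v, mem_filter.2 ⟨this.1, this.2.1⟩⟩, mem_filter.2 ⟨mem_univ _, hv⟩,
            rfl⟩
      have h3 : Disjoint PV AV := by
        rw [Finset.disjoint_left]
        intro w hw hw'
        have h4 := hP _ (mem_filter.1 hw).2
        have h5 := (hAs _ (mem_filter.1 hw').2).2.2
        have h6 : (s : ℤ) ≤ r := by
          have : s ≤ r := by nlinarith
          exact_mod_cast this
        linarith
      have h4 : PV ∪ AV ⊆ S := by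
        intro w hw
        rw [hS, mem_filter]
        rcases mem_union.1 hw with h | h
        · exact ⟨mem_univ _, Or.inr (mem_filter.1 h).2⟩
        · exact ⟨mem_univ _, Or.inl (mem_filter.1 h).2⟩
      have h5 := card_le_card h4
      rw [card_union_of_disjoint h3] at h5
      omega
    have hSc : Fintype.card S = S.card := Fintype.card_coe S
    have := minor_white (ι := S) J s ρ r hJ hρ hr x (4 * Mx) (fun i => (c i : Pt)) E ?_
      (fun j => rowF V κ j) ?_ ?_ (mi S A c) ?_ ?_
    · refine this.trans ?_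
      rw [hSc, hB]
      have hpw : (64 * J * (s + 1 : ℕ) / ρ : ℝ) ^ (J * (S.card - (2 * J ^ 2 + E.card)))
          ≤ (64 * J * (s + 1 : ℕ) / ρ : ℝ) ^ (J * (As.card - 2 * J ^ 2)) := by
        apply pow_le_pow_of_le_one hθ0 hθ1
        exact Nat.mul_le_mul_left _ (by omega)
      have h1 : (((2 * J ^ 2 + S.card : ℕ) : ℝ)) ^ S.card ≤ ((2 * J ^ 2 + N : ℕ) : ℝ) ^ N := by
        calc (((2 * J ^ 2 + S.card : ℕ) : ℝ)) ^ S.card ≤ ((2 * J ^ 2 + N : ℕ) : ℝ) ^ S.card := by
              gcongr
          _ ≤ ((2 * J ^ 2 + N : ℕ) : ℝ) ^ N := by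
              apply pow_le_pow_right₀ _ hcardS
              have : 1 ≤ 2 * J ^ 2 + N := by nlinarith
              exact_mod_cast this
      have h2 : ((S.card.factorial : ℕ) : ℝ) ≤ N.factorial := by
        exact_mod_cast Nat.factorial_le hcardS
      have h3 : (3 * (4 * Mx)) ^ S.card ≤ (3 * (4 * Mx)) ^ N :=
        pow_le_pow_right₀ (by linarith) hcardS
      gcongr
    · intro i hi
      have hcP : ¬ ((c i : Pt) ∈ P) := fun h => hi (mem_filter.2 ⟨mem_univ _, h⟩)
      refine ⟨(c i).white, ?_⟩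
      rcases (mem_filter.1 (hcT i i.2)).2 with h | h | h
      · exact (hAs _ h).2.2
      · exact absurd h hcP
      · exact hQ _ h
    · intro j v hv _
      exact hrowb j j.2 v hv
    · intro j b hb hbr
      exact hrowh j j.2 b hb hbr
    · intro j i _
      exact hAij j (c i)
    · intro j i _
      have : mi S A c j i = rowF V κ j (c i) := hAij j (c i)
      rw [this]
      exact hrowb j j.2 _ (c i).white
  -- local determinants
  have hloc : ∀ c : WV V → WV V, Set.InjOn c S → (∀ i ∈ S, c i ∈ Tt) → |(un A S c).det| ≤ D := by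
    intro c hc _
    have h1 : |(un A S c).det| * Z V = |(un A S c * MR V m0 K).det| := by
      rw [Matrix.det_mul, abs_mul, ← detR_def V m0 K, hZ]
    have hrow : ∀ i, (un A S c * MR V m0 K) i =
        if i ∈ S then MR V m0 K (c i) else MR V m0 κ i := by
      intro i
      funext j
      by_cases hi : i ∈ S
      · simp only [hi, if_true]
        rw [Matrix.mul_apply]
        simp only [un, hi, if_true]
        rw [Finset.sum_eq_single (c i)]
        · simp
        · intro k _ hk
          rw [Pi.single_eq_of_ne hk, zero_mul]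
        · simp
      · simp only [hi, if_false]
        have h2 : (un A S c * MR V m0 K) i j = (A * MR V m0 K) i j := by
          rw [Matrix.mul_apply, Matrix.mul_apply]
          simp only [un, hi, if_false]
        rw [h2, hA, Matrix.mul_assoc, hGM, Matrix.mul_one]
    have hb := abs_det_le_rows_inj (fun _ => univ) (N.factorial * Mx ^ N * Z V)
      (by positivity) S (un A S c * MR V m0 K) (fun i _ k hk => absurd (mem_univ _) hk) (by
        intro f hf _
        have e : unitRows (un A S c * MR V m0 K) S f =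
            (fun i => if i ∈ S then Pi.single (f i) 1 else MR V m0 κ0 i :
              Matrix (WV V) (WV V) ℝ) := by
          funext i
          by_cases hi : i ∈ S
          · simp only [unitRows, hi, if_true]
          · simp only [unitRows, hi, if_false]
            rw [hrow, if_neg hi]
            have hiA : (i : Pt) ∉ As := fun h => hi (mem_filter.2 ⟨mem_univ _, Or.inl h⟩)
            funext j
            simp only [MR, Matrix.of_apply, hκdef, slotK, hiA, if_false]
        rw [e]
        refine (abs_locdet_le h0 hpos κ0 hκ1 hκ2 S f hf hMx0 ?_).trans ?_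
        · intro w _ w' _
          exact hM _ _ w.mem (IsPM.mem h0 (f w').mem) w.white
            (IsPM.black h0 (f w').mem (f w').white)
        · have h2 : ((S.card.factorial : ℕ) : ℝ) ≤ N.factorial := by
            exact_mod_cast Nat.factorial_le hcardS
          have h3 : Mx ^ S.card ≤ Mx ^ N := pow_le_pow_right₀ hMx hcardS
          gcongr)
    have h4 : (∏ i ∈ S, ∑ k ∈ (univ : Finset (WV V)), |(un A S c * MR V m0 K) i k|) ≤ 4 ^ N := by
      calc (∏ i ∈ S, ∑ k ∈ (univ : Finset (WV V)), |(un A S c * MR V m0 K) i k|)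
          ≤ ∏ _i ∈ S, (4 : ℝ) := by
            apply prod_le_prod
            · intro i _
              exact sum_nonneg fun k _ => abs_nonneg _
            · intro i hi
              have : (un A S c * MR V m0 K) i = MR V m0 K (c i) := by
                rw [hrow, if_pos hi]
              rw [this]
              exact nrm_le h0 (c i)
        _ = 4 ^ S.card := by rw [prod_const]
        _ ≤ 4 ^ N := pow_le_pow_right₀ (by norm_num) hcardS
    have h5 : |(un A S c).det| * Z V ≤ D * Z V := by
      rw [h1]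
      refine hb.trans ?_
      calc _ ≤ 4 ^ N * (N.factorial * Mx ^ N * (Z V : ℝ)) := by gcongr
        _ = D * Z V := by rw [hD]; ring
    exact le_of_mul_le_mul_right h5 hposR
  have hfin := abs_det_rep_le A S Tt hST A hunit B D (by positivity) hmin hloc
  rw [hrep] at hfin
  rw [hdetA]
  have h6 : (Tt.card : ℝ) ^ S.card ≤ (Tc : ℝ) ^ N := by
    calc (Tt.card : ℝ) ^ S.card ≤ (Tc : ℝ) ^ S.card := by gcongr
      _ ≤ (Tc : ℝ) ^ N := pow_le_pow_right₀ (by exact_mod_cast hTc) hcardS
  have hB0 : 0 ≤ B := by positivity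
  have hD0 : 0 ≤ D := by positivity
  have h7 : |A.det| ≤ (Tc : ℝ) ^ N * B * D := hfin.trans (by gcongr)
  exact mul_le_mul_of_nonneg_right h7 hposR.le

end Vale.Agent.P155.T211
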